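import Crest.Agent.FP.Tower

set_option autoImplicit false
open Filter Topology

namespace Crest.Agent.FP

variable {X : Type*} [NormedAddCommGroup X] [NormedSpace ℝ X]

theorem Setup.body {K : Set X} {x : ℕ → X} (h : Setup K x) : Body K :=
  ⟨h.closed, h.convex, h.zero, h.diam⟩

theorem dc {α : Type*} [Inhabited α] (I : α → Prop) (C : ℕ → (ℕ → α) → α → Prop)
    (hloc : ∀ i h h' a, (∀ j < i, h j = h' j) → C i h a → C i h' a)
    (hstep : ∀ i h, (∀ j < i, I (h j)) → ∃ a, I a ∧ C i h a) :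
    ∃ h : ℕ → α, ∀ i, I (h i) ∧ C i h (h i) := by
  classical
  let nx : ℕ → (ℕ → α) → α := fun i h =>
    if hh : (∀ j < i, I (h j)) then (hstep i h hh).choose else default
  let H : ℕ → ℕ → α := fun i =>
    Nat.rec (fun _ => default) (fun i Hi => Function.update Hi i (nx i Hi)) i
  have hH : ∀ i, H (i + 1) = Function.update (H i) i (nx i (H i)) := fun i => rfl
  let h : ℕ → α := fun i => nx i (H i)
  have hag : ∀ i, ∀ j < i, H i j = h j := by
    intro i
    induction i with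
    | zero => intro j hj; omega
    | succ i ih =>
      intro j hj
      rw [hH]
      rcases (Nat.lt_succ_iff.1 hj).lt_or_eq with hj | rfl
      · rw [Function.update_of_ne hj.ne, ih j hj]
      · rw [Function.update_self]
  refine ⟨h, fun i => ?_⟩
  induction i using Nat.strong_induction_on with
  | _ i ih =>
    have hh : ∀ j < i, I (H i j) := fun j hj => by rw [hag i j hj]; exact (ih j hj).1
    have hs := (hstep i (H i) hh).choose_spec
    have e : h i = (hstep i (H i) hh).choose := by simp only [h, nx, dif_pos hh]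
    rw [e]
    exact ⟨hs.1, hloc _ _ _ _ (hag i) hs.2⟩

theorem mem_closure_of_weak {ι : Type*} {l : Filter ι} [l.NeBot] {a : ι → X} {v : X}
    (hv : ∀ f : X →L[ℝ] ℝ, Tendsto (fun n => f (a n)) l (𝓝 (f v))) {C : Set X}
    (hC : Convex ℝ C) (ha : ∀ᶠ n in l, a n ∈ C) : v ∈ closure C := by
  by_contra hv'
  obtain ⟨f, u, h1, h2⟩ := geometric_hahn_banach_point_closed hC.closure isClosed_closure hv'
  have h3 : u ≤ f v := ge_of_tendsto (hv f) (ha.mono fun n hn => (h2 _ (subset_closure hn)).le)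
  linarith

noncomputable def UF : Ultrafilter ℕ := Filter.hyperfilter ℕ

theorem UF_le : (UF : Filter ℕ) ≤ atTop := by
  rw [← Nat.cofinite_eq_atTop]; exact Filter.hyperfilter_le_cofinite

theorem Refl.seq (hR : Refl X) (a : ℕ → X) (R : ℝ) (ha : ∀ n, ‖a n‖ ≤ R) :
    ∃ v : X, ∀ f : X →L[ℝ] ℝ, Tendsto (fun n => f (a n)) (UF : Filter ℕ) (𝓝 (f v)) := by
  obtain ⟨v, hv⟩ := hR (UF.map a) R (by
    rw [Ultrafilter.mem_map]
    exact Filter.univ_mem' fun n => mem_closedBall_zero_iff.2 (ha n))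
  exact ⟨v, fun f => by
    have := hv f
    rw [Ultrafilter.coe_map, tendsto_map'_iff] at this
    exact this⟩

noncomputable def wl (a : ℕ → X) : X :=
  Classical.epsilon fun v : X =>
    ∀ f : X →L[ℝ] ℝ, Tendsto (fun n => f (a n)) (UF : Filter ℕ) (𝓝 (f v))

theorem wl_tend (hR : Refl X) {K : Set X} (h : Body K) {a : ℕ → X} (ha : ∀ n, a n ∈ K)
    (f : X →L[ℝ] ℝ) : Tendsto (fun n => f (a n)) (UF : Filter ℕ) (𝓝 (f (wl a))) :=
  Classical.epsilon_spec (hR.seq a 1 fun n => h.norm_le (ha n)) f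

theorem wl_mem (hR : Refl X) {K : Set X} (h : Body K) {a : ℕ → X} (ha : ∀ n, a n ∈ K) :
    wl a ∈ K := by
  have := mem_closure_of_weak (wl_tend hR h ha) h.convex (Eventually.of_forall ha)
  rwa [h.closed.closure_eq] at this

theorem gk_fin {K : Set X} (h : Body K) {A : Set X} (hA : A.Finite) (hAK : A ⊆ K) {ζ : ℝ}
    (hζ : 0 < ζ) : ∃ z ∈ K, ∃ ζ' : ℝ, 0 < ζ' ∧ ∀ (φ : X →L[ℝ] ℝ), ‖φ‖ ≤ 1 → ∀ y ∈ K,
      1 - ζ' ≤ φ (y - z) → ∀ a ∈ A, 1 - ζ ≤ φ (y - a) := by
  induction A, hA using Set.Finite.induction_on with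
  | empty => exact ⟨0, h.zero, 1, one_pos, fun _ _ _ _ _ a ha => ha.elim⟩
  | @insert a A _ _ ih =>
    obtain ⟨z, hz, ζ', hζ', H⟩ := ih ((Set.subset_insert _ _).trans hAK)
    have haK : a ∈ K := hAK (Set.mem_insert _ _)
    refine ⟨(1 / 2 : ℝ) • z + (1 / 2 : ℝ) • a,
      h.convex hz haK (by norm_num) (by norm_num) (by norm_num), min ζ ζ' / 2, by positivity,
      fun φ hφ y hy hyz => ?_⟩
    have hb : ∀ u ∈ K, φ (y - u) ≤ 1 := fun u hu =>
      (le_abs_self _).trans ((φ.le_opNorm _).trans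
        (mul_le_one₀ hφ (norm_nonneg _) (h.diam _ hy _ hu)))
    have e : φ (y - ((1 / 2 : ℝ) • z + (1 / 2 : ℝ) • a)) = (φ (y - z) + φ (y - a)) / 2 := by
      simp only [map_sub, map_add, map_smul, smul_eq_mul]; ring
    rw [e] at hyz
    have h1 := hb z hz
    have h2 := hb a haK
    have h3 := min_le_left ζ ζ'
    have h4 := min_le_right ζ ζ'
    intro b hb'
    rcases hb' with rfl | hb'
    · linarith
    · exact H φ hφ y hy (by linarith) b hb'

theorem gk_fun {K : Set X} {x : ℕ → X} (h : Setup K x) {A : Set X} (hA : A.Finite) (hAK : A ⊆ K)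
    {ζ : ℝ} (hζ : 0 < ζ) :
    ∀ᶠ n in atTop, ∃ φ : X →L[ℝ] ℝ, ‖φ‖ ≤ 1 ∧ ∀ a ∈ A, 1 - ζ ≤ φ (x n - a) := by
  obtain ⟨z, hz, ζ', hζ', H⟩ := gk_fin h.body hA hAK hζ
  filter_upwards [(h.gk z hz).eventually (lt_mem_nhds (show 1 - ζ' < 1 by linarith))] with n hn
  obtain ⟨φ, hφ, hφ'⟩ := exists_dual_vector'' ℝ (x n - z)
  refine ⟨φ, hφ, H φ hφ _ (h.mem n) ?_⟩
  rw [hφ']; exact hn.le

structure Dat (X : Type*) [NormedAddCommGroup X] [NormedSpace ℝ X] where
  y : X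
  Φ : X → X
  φ : X →L[ℝ] ℝ
  θ : ℝ

instance : Inhabited (Dat X) := ⟨⟨0, id, 0, 0⟩⟩

noncomputable def pp (x : ℕ → X) (h : ℕ → Dat X) (i : ℕ) (w : X) : X :=
  wl fun N => PP (x N) (fun j => (h j).y) (fun j => (h j).Φ) w 0 i

noncomputable def bb (x : ℕ → X) (h : ℕ → Dat X) (i : ℕ) (w : X) : X :=
  (eps i ^ i)⁻¹ • (pp x h i w - pp x h i 0)

noncomputable def SS (x : ℕ → X) (h : ℕ → Dat X) (n : ℕ) : X :=
  ∑ i ∈ Finset.range n, (h i).θ • bb x h i (h i).y

noncomputable def zt (i : ℕ) : ℝ := eps i ^ i / (8 * (i + 1))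

theorem zt_pos (i : ℕ) : 0 < zt i := by have := eps_pos i; unfold zt; positivity

theorem pp_local (x : ℕ → X) {h h' : ℕ → Dat X} {i : ℕ} (hh : ∀ j < i, h j = h' j) (w : X) :
    pp x h i w = pp x h' i w := by
  unfold pp
  congr 1; funext N
  exact PP_local _ i (fun j hj => by simp [hh j hj]) w 0

theorem bb_local (x : ℕ → X) {h h' : ℕ → Dat X} {i : ℕ} (hh : ∀ j < i, h j = h' j) (w : X) :
    bb x h i w = bb x h' i w := by
  unfold bb; rw [pp_local x hh, pp_local x hh]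

theorem SS_local (x : ℕ → X) {h h' : ℕ → Dat X} {i : ℕ} (hh : ∀ j < i, h j = h' j) :
    SS x h i = SS x h' i := by
  unfold SS
  refine Finset.sum_congr rfl fun j hj => ?_
  have hj' := Finset.mem_range.1 hj
  rw [bb_local x (fun l hl => hh l (by omega)), hh j hj']

def II (K : Set X) (x : ℕ → X) (a : Dat X) : Prop :=
  a.y ∈ K ∧ NE K a.Φ ∧ Tendsto (fun n => ‖a.Φ (x n) - x n‖) atTop (𝓝 0) ∧ ‖a.φ‖ ≤ 1

def CC (x : ℕ → X) (i : ℕ) (h : ℕ → Dat X) (a : Dat X) : Prop :=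
  (∃ n, i ≤ n ∧ a.y = x n) ∧ (∀ k < i, ‖(h k).Φ a.y - a.y‖ ≤ zt i) ∧
  (∀ j ≤ i, 1 - zt i ≤ a.φ (a.y - pp x h j 0)) ∧
  (∀ j < i, 1 - zt i ≤ a.φ (a.y - pp x h j (h j).y)) ∧
  ((a.θ = 1 ∧ ‖a.Φ 0 - a.y‖ ≤ dl i ∧
      ∀ j < i, (h j).θ = 1 → 1 / 2 < (h j).φ (SS x h i + bb x h i a.y)) ∨
    (a.θ = 0 ∧ a.Φ = id ∧
      ∃ j < i, (h j).θ = 1 ∧ (h j).φ (SS x h i + bb x h i a.y) ≤ 1 / 2))

theorem CC_local (x : ℕ → X) (i : ℕ) (h h' : ℕ → Dat X) (a : Dat X) (hh : ∀ j < i, h j = h' j)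
    (H : CC x i h a) : CC x i h' a := by
  obtain ⟨H1, H2, H3, H4, H5⟩ := H
  have e1 : ∀ j ≤ i, ∀ w, pp x h j w = pp x h' j w := fun j hj w =>
    pp_local x (fun l hl => hh l (by omega)) w
  refine ⟨H1, fun k hk => hh k hk ▸ H2 k hk, fun j hj => e1 j hj 0 ▸ H3 j hj,
    fun j hj => ?_, ?_⟩
  · rw [← e1 j hj.le, ← hh j hj]; exact H4 j hj
  · rw [← SS_local x hh, ← bb_local x hh]
    rcases H5 with ⟨a1, a2, a3⟩ | ⟨a1, a2, j, hj, a3⟩
    · exact Or.inl ⟨a1, a2, fun j hj => hh j hj ▸ a3 j hj⟩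
    · exact Or.inr ⟨a1, a2, j, hj, hh j hj ▸ a3⟩

theorem pp_mem [CompleteSpace X] (hR : Refl X) {K : Set X} {x : ℕ → X} (hS : Setup K x)
    {h : ℕ → Dat X} {i : ℕ} (hI : ∀ j < i, II K x (h j)) {w : X} (hw : w ∈ K) :
    pp x h i w ∈ K :=
  wl_mem hR hS.body fun N =>
    PP_mem hS.body (hS.mem N) i (fun j hj => ⟨(hI j hj).1, (hI j hj).2.1⟩) hw 0 (Nat.zero_le _)

theorem CC_step [CompleteSpace X] (hR : Refl X) {K : Set X} {x : ℕ → X} (hS : Setup K x) (i : ℕ)
    (h : ℕ → Dat X) (hI : ∀ j < i, II K x (h j)) : ∃ a, II K x a ∧ CC x i h a := by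
  let A : Set X := (fun j => pp x h j 0) '' Set.Iic i ∪ (fun j => pp x h j (h j).y) '' Set.Iio i
  have hA : A.Finite := ((Set.finite_Iic i).image _).union ((Set.finite_Iio i).image _)
  have hAK : A ⊆ K := by
    rintro _ (⟨j, hj, rfl⟩ | ⟨j, hj, rfl⟩)
    · exact pp_mem hR hS (fun l hl => hI l (lt_of_lt_of_le hl hj)) hS.zero
    · exact pp_mem hR hS (fun l hl => hI l (lt_trans hl hj)) (hI j hj).1
  have h1 := gk_fun hS hA hAK (zt_pos i)
  have h2 : ∀ᶠ n in atTop, ∀ k ∈ Finset.range i, ‖(h k).Φ (x n) - x n‖ ≤ zt i :=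
    (Finset.eventually_all _).2 fun k hk =>
      ((hI k (Finset.mem_range.1 hk)).2.2.1.eventually (gt_mem_nhds (zt_pos i))).mono
        fun n hn => hn.le
  obtain ⟨n, ⟨⟨φ, hφ, hφ'⟩, hn2⟩, hn3⟩ := ((h1.and h2).and (eventually_ge_atTop i)).exists
  have c3 : ∀ j ≤ i, 1 - zt i ≤ φ (x n - pp x h j 0) := fun j hj => hφ' _ (Or.inl ⟨j, hj, rfl⟩)
  have c4 : ∀ j < i, 1 - zt i ≤ φ (x n - pp x h j (h j).y) :=
    fun j hj => hφ' _ (Or.inr ⟨j, hj, rfl⟩)
  have c2 : ∀ k < i, ‖(h k).Φ (x n) - x n‖ ≤ zt i := fun k hk => hn2 k (Finset.mem_range.2 hk)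
  by_cases hc : ∀ j < i, (h j).θ = 1 → 1 / 2 < (h j).φ (SS x h i + bb x h i (x n))
  · obtain ⟨Φ, hΦ1, hΦ2, hΦ3⟩ := hS.dense (x n) (hS.mem n) (dl i) (dl_pos i)
    exact ⟨⟨x n, Φ, φ, 1⟩, ⟨hS.mem n, hΦ1, hΦ3, hφ⟩, ⟨n, hn3, rfl⟩, c2, c3, c4,
      Or.inl ⟨rfl, hΦ2, hc⟩⟩
  · push Not at hc
    exact ⟨⟨x n, id, φ, 0⟩, ⟨hS.mem n, ⟨fun _ h => h, fun _ _ _ _ => le_rfl⟩, by simp, hφ⟩,
      ⟨n, hn3, rfl⟩, c2, c3, c4, Or.inr ⟨rfl, rfl, hc⟩⟩

theorem core [CompleteSpace X] (hR : Refl X) {K : Set X} {x : ℕ → X} (hS : Setup K x) : False := by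
  obtain ⟨h, hh⟩ := dc (II K x) (CC x) (CC_local x) (CC_step hR hS)
  have hB := hS.body
  set y : ℕ → X := fun j => (h j).y with hy
  set Φ : ℕ → X → X := fun j => (h j).Φ with hΦ
  have hyΦ : ∀ j, y j ∈ K ∧ NE K (Φ j) := fun j => ⟨(hh j).1.1, (hh j).1.2.1⟩
  have hφ1 : ∀ j, ‖(h j).φ‖ ≤ 1 := fun j => (hh j).1.2.2.2
  have hφle : ∀ j v, |(h j).φ v| ≤ ‖v‖ := fun j v =>
    ((h j).φ.le_opNorm v).trans (mul_le_of_le_one_left (norm_nonneg _) (hφ1 j))
  have hPP : ∀ i w, w ∈ K → ∀ N, PP (x N) y Φ w 0 i ∈ K := fun i w hw N =>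
    PP_mem hB (hS.mem N) i (fun j _ => hyΦ j) hw 0 (Nat.zero_le _)
  have hpp : ∀ i w, w ∈ K → pp x h i w ∈ K := fun i w hw => wl_mem hR hB (hPP i w hw)
  have hpt : ∀ i w, w ∈ K → ∀ f : X →L[ℝ] ℝ,
      Tendsto (fun N => f (PP (x N) y Φ w 0 i)) (UF : Filter ℕ) (𝓝 (f (pp x h i w))) :=
    fun i w hw f => wl_tend hR hB (hPP i w hw) f
  set b : ℕ → X := fun i => bb x h i (y i) with hb
  have hbt : ∀ i (f : X →L[ℝ] ℝ),
      Tendsto (fun N => f (UU (x N) y Φ 0 i)) (UF : Filter ℕ) (𝓝 (f (b i))) := by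
    intro i f
    simp only [UU, hb, bb, map_smul, map_sub, Nat.sub_zero]
    exact ((hpt i _ (hyΦ i).1 f).sub (hpt i _ hB.zero f)).const_smul _
  have hθ : ∀ i, (h i).θ = 1 ∨ (h i).θ = 0 := fun i => by
    rcases (hh i).2.2.2.2.2 with h1 | h1
    · exact Or.inl h1.1
    · exact Or.inr h1.1
  have hθ1 : ∀ i, |(h i).θ| ≤ 1 := fun i => by rcases hθ i with h1 | h1 <;> simp [h1]
  -- (a)
  have ha : ∀ i, 7 / 8 ≤ (h i).φ (b i) := by
    intro i
    have h1 : ‖pp x h i (y i) - y i‖ ≤ 1 - eps i ^ i + i * zt i := by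
      have := mem_closure_of_weak (hpt i _ (hyΦ i).1)
        (convex_closedBall (y i) (1 - eps i ^ i + i * zt i)) (Eventually.of_forall fun N => by
          rw [Metric.mem_closedBall, dist_eq_norm]
          exact PP_near hB (hS.mem N) i (fun j _ => hyΦ j) (hyΦ i).1 (zt_pos i).le
            (hh i).2.2.1 0 (Nat.zero_le _))
      rwa [Metric.isClosed_closedBall.closure_eq, Metric.mem_closedBall, dist_eq_norm] at this
    have h2 := (hh i).2.2.2.1 i le_rfl
    have h3 := hφle i (pp x h i (y i) - y i)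
    have h4 : 0 < eps i ^ i := pow_pos (eps_pos i) i
    have h5 : (i + 1) * zt i = eps i ^ i / 8 := by unfold zt; field_simp
    simp only [hb, bb, map_smul, smul_eq_mul]
    rw [le_inv_mul_iff₀ h4]
    rw [abs_le] at h3
    simp only [map_sub] at h2 h3 ⊢
    change 1 - zt i ≤ (h i).φ (y i) - _ at h2
    linarith [h3.1]
  -- (b)
  have hb' : ∀ i, ∀ j < i, |(h i).φ (b j)| ≤ 1 / (8 * (i + 1)) := by
    intro i j hj
    have h2 := (hh i).2.2.2.1 j hj.le
    have h3 := (hh i).2.2.2.2.1 j hj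
    have h4 := (le_abs_self _).trans ((hφle i _).trans
      (hB.diam _ (hyΦ i).1 _ (hpp j _ hB.zero)))
    have h5 := (le_abs_self _).trans ((hφle i _).trans
      (hB.diam _ (hyΦ i).1 _ (hpp j _ (hyΦ j).1)))
    have h6 : |(h i).φ (pp x h j (y j) - pp x h j 0)| ≤ zt i := by
      change 1 - zt i ≤ (h i).φ (y i - _) at h2
      change 1 - zt i ≤ (h i).φ (y i - pp x h j (y j)) at h3
      simp only [map_sub] at h2 h3 h4 h5 ⊢
      rw [abs_le]; constructor <;> linarith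
    have h7 : 0 < eps j ^ j := pow_pos (eps_pos j) j
    have h8 := eps_pow_anti hj.le
    simp only [hb, bb, map_smul, smul_eq_mul]
    rw [abs_mul, abs_of_pos (inv_pos.2 h7), inv_mul_le_iff₀ h7]
    refine h6.trans ?_
    unfold zt
    rw [mul_one_div]
    gcongr
  have hSS : ∀ n, SS x h n = ∑ i ∈ Finset.range n, (h i).θ • b i := fun n => rfl
  have hb'' : ∀ i, ∀ n ≤ i, |(h i).φ (SS x h n)| ≤ 1 / 8 := by
    intro i n hn
    rw [hSS, map_sum]
    refine (Finset.abs_sum_le_sum_abs _ _).trans ?_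
    refine (Finset.sum_le_card_nsmul _ _ (1 / (8 * (i + 1)) : ℝ) fun j hj => ?_).trans ?_
    · rw [map_smul, smul_eq_mul, abs_mul]
      exact (mul_le_of_le_one_left (abs_nonneg _) (hθ1 j)).trans
        (hb' i j (lt_of_lt_of_le (Finset.mem_range.1 hj) hn))
    · rw [Finset.card_range, nsmul_eq_mul, mul_one_div, div_le_div_iff₀ (by positivity) (by norm_num)]
      have : (n : ℝ) ≤ i := by exact_mod_cast hn
      linarith
  have hSs : ∀ n, SS x h (n + 1) = SS x h n + (h n).θ • b n := fun n => by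
    rw [hSS, hSS, Finset.sum_range_succ]
  -- (c)
  have hc : ∀ n, ∀ j < n, (h j).θ = 1 → 1 / 2 < (h j).φ (SS x h n) := by
    intro n
    induction n with
    | zero => intro j hj; omega
    | succ n ih =>
      intro j hj hj1
      rw [hSs]
      rcases (Nat.lt_succ_iff.1 hj).lt_or_eq with hj | rfl
      · rcases (hh n).2.2.2.2.2 with ⟨a1, -, a3⟩ | ⟨a1, -, -⟩
        · rw [a1, one_smul]; exact a3 j hj hj1
        · rw [a1, zero_smul, add_zero]; exact ih j hj hj1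
      · rw [hj1, one_smul, map_add]
        linarith [ha j, (abs_le.1 (hb'' j j le_rfl)).1]
  -- weak nullity of y
  have hyn : ∀ f : X →L[ℝ] ℝ, Tendsto (fun i => f (y i)) atTop (𝓝 0) := by
    intro f
    choose n hn hn' using fun i => (hh i).2.1
    have : Tendsto n atTop atTop := tendsto_atTop_mono hn tendsto_id
    refine ((hS.wnull f).comp this).congr fun i => ?_
    simp only [Function.comp, hy, hn' i]
  -- (d)
  have hd : ∀ i0, ∃ i, i0 ≤ i ∧ (h i).θ = 1 := by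
    intro i0
    by_contra hno
    push Not at hno
    have h0 : ∀ i, i0 ≤ i → (h i).θ = 0 ∧ Φ i = id ∧
        ∃ j < i, (h j).θ = 1 ∧ (h j).φ (SS x h i + b i) ≤ 1 / 2 := fun i hi => by
      rcases (hh i).2.2.2.2.2 with h1 | h1
      · exact absurd h1.1 (hno i hi)
      · exact h1
    have h1 : ∀ i, i0 ≤ i → SS x h i = SS x h i0 := by
      intro i hi
      induction i, hi using Nat.le_induction with
      | base => rfl
      | succ i hi ih => rw [hSs, (h0 i hi).1, zero_smul, add_zero, ih]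
    have h2 : ∃ j ∈ Finset.range i0, ∃ᶠ i in atTop,
        (h j).θ = 1 ∧ (h j).φ (SS x h i0 + b i) ≤ 1 / 2 := by
      by_contra hcon
      push Not at hcon
      have h3 := (Finset.eventually_all _).2 hcon
      obtain ⟨i, hi1, hi2⟩ := (h3.and (eventually_ge_atTop i0)).exists
      obtain ⟨-, -, j, -, hj1, hj2⟩ := h0 i hi2
      have hj : j < i0 := by
        by_contra hj; exact hno j (not_lt.1 hj) hj1
      rw [h1 i hi2] at hj2
      exact absurd (hi1 j (Finset.mem_range.2 hj) hj1) (not_lt.2 hj2)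
    obtain ⟨j, hj, hfr⟩ := h2
    have hj1 : (h j).θ = 1 := hfr.exists.choose_spec.1
    set σ := (h j).φ (SS x h i0) - 1 / 2 with hσ
    have hσ0 : 0 < σ := sub_pos.2 (hc i0 j (Finset.mem_range.1 hj) hj1)
    have hdl : Tendsto (fun i => (i0 : ℝ) * dl i) atTop (𝓝 0) := by
      have := (tendsto_pow_atTop_nhds_zero_of_lt_one (show (0 : ℝ) ≤ 1 / 2 by norm_num)
        (by norm_num)).const_mul (i0 : ℝ)
      simpa [dl] using this
    let J : Set ℕ := {i | i0 ≤ i ∧ (h j).φ (b i) ≤ -σ ∧ (i0 : ℝ) * dl i ≤ σ / 2}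
    have hJ : ∃ᶠ i in atTop, i ∈ J := by
      refine (hfr.and_eventually ((eventually_ge_atTop i0).and
        (hdl.eventually (gt_mem_nhds (half_pos hσ0))))).mono ?_
      rintro i ⟨⟨-, a1⟩, a2, a3⟩
      refine ⟨a2, ?_, a3.le⟩
      rw [map_add] at a1; linarith
    let W : Set (ℕ →₀ ℝ) := {γ | (∀ i, 0 ≤ γ i) ∧ (∀ i, i ∉ J → γ i = 0) ∧
      Finsupp.linearCombination ℝ (fun _ : ℕ => (1 : ℝ)) γ = 1}
    have hW : Convex ℝ W := by
      rintro γ ⟨g1, g2, g3⟩ γ' ⟨g1', g2', g3'⟩ a a' ha ha' haa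
      refine ⟨fun i => ?_, fun i hi => ?_, ?_⟩
      · simp only [Finsupp.add_apply, Finsupp.smul_apply, smul_eq_mul]
        exact add_nonneg (mul_nonneg ha (g1 i)) (mul_nonneg ha' (g1' i))
      · simp [g2 i hi, g2' i hi]
      · rw [map_add, map_smul, map_smul, g3, g3']; simpa using haa
    have hne : (atTop ⊓ 𝓟 J : Filter ℕ).NeBot := frequently_iff_neBot.1 hJ
    have h0C : (0 : X) ∈ closure (Finsupp.linearCombination ℝ y '' W) := by
      refine mem_closure_of_weak (l := atTop ⊓ 𝓟 J) (a := y)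
        (fun f => by rw [map_zero]; exact (hyn f).mono_left inf_le_left)
        (hW.linear_image _) ?_
      have hev : ∀ᶠ i in atTop ⊓ 𝓟 J, i ∈ J := mem_inf_of_right (mem_principal_self J)
      refine hev.mono fun i hi => ⟨Finsupp.single i 1, ⟨fun l => ?_, fun l hl => ?_, by simp⟩, by simp⟩
      · rw [Finsupp.single_apply]; split_ifs <;> norm_num
      · rw [Finsupp.single_apply, if_neg]; rintro rfl; exact hl hi
    obtain ⟨_, ⟨γ, ⟨g1, g2, g3⟩, rfl⟩, hv⟩ := Metric.mem_closure_iff.1 h0C (σ / 2) (half_pos hσ0)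
    obtain ⟨n, hn⟩ : ∃ n, γ.support ⊆ Finset.range n := Finset.exists_nat_subset_range _
    have hl : ∀ {M : Type _} [AddCommGroup M] [Module ℝ M] (v : ℕ → M),
        Finsupp.linearCombination ℝ v γ = ∑ i ∈ Finset.range n, γ i • v i := by
      intro M _ _ v
      rw [Finsupp.linearCombination_apply, Finsupp.sum_of_support_subset _ hn _ (by simp)]
    have hl' : ∑ i ∈ Finset.range n, γ i = 1 := by
      rw [Finsupp.linearCombination_apply, Finsupp.sum_of_support_subset _ hn _ (by simp)] at g3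
      simpa using g3
    rw [hl (M := X), dist_comm, dist_zero_right] at hv
    have e1 : (i0 : ℝ) * ∑ i ∈ Finset.range n, |γ i| * dl i ≤ σ / 2 := by
      rw [Finset.mul_sum]
      calc _ ≤ ∑ i ∈ Finset.range n, γ i * (σ / 2) := Finset.sum_le_sum fun i _ => by
            by_cases hi : i ∈ J
            · rw [abs_of_nonneg (g1 i), mul_left_comm]
              exact mul_le_mul_of_nonneg_left hi.2.2 (g1 i)
            · simp [g2 i hi]
        _ = σ / 2 := by rw [← Finset.sum_mul, hl', one_mul]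
    have e2 : ∑ i ∈ Finset.range n, γ i * (h j).φ (b i) ≤ -σ := by
      calc _ ≤ ∑ i ∈ Finset.range n, γ i * (-σ) := Finset.sum_le_sum fun i _ => by
            by_cases hi : i ∈ J
            · exact mul_le_mul_of_nonneg_left hi.2.1 (g1 i)
            · simp [g2 i hi]
        _ = -σ := by rw [← Finset.sum_mul, hl', one_mul]
    have e3 : Tendsto (fun N => (h j).φ (∑ i ∈ Finset.range n, γ i • UU (x N) y Φ 0 i))
        (UF : Filter ℕ) (𝓝 (∑ i ∈ Finset.range n, γ i * (h j).φ (b i))) := by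
      simp only [map_sum, map_smul, smul_eq_mul]
      exact tendsto_finsetSum _ fun i _ => (hbt i _).const_mul _
    have e4 : -(‖∑ i ∈ Finset.range n, γ i • y i‖ + σ / 2)
        ≤ ∑ i ∈ Finset.range n, γ i * (h j).φ (b i) := by
      refine ge_of_tendsto e3 (Eventually.of_forall fun N => ?_)
      have m1 := mazur_ineq hB (hS.mem N) hyΦ i0 (fun k hk => (h0 k hk).2.1) γ
        (fun i hi => g2 i fun hJ => absurd hJ.1 (not_le.2 hi)) n
      have m2 := (abs_le.1 (hφle j (∑ i ∈ Finset.range n, γ i • UU (x N) y Φ 0 i))).1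
      linarith
    linarith
  -- (e)
  have he : ∀ n, ‖SS x h n‖ ≤ 9 := by
    intro n
    refine norm_le_of_dual _ _ fun f hf => ?_
    have e3 : Tendsto (fun N => -f (x N - ∑ i ∈ Finset.range n, (h i).θ • UU (x N) y Φ 0 i))
        (UF : Filter ℕ) (𝓝 (f (SS x h n))) := by
      simp only [hSS, map_sub, map_sum, map_smul, smul_eq_mul, neg_sub]
      have := (tendsto_finsetSum (Finset.range n) fun i _ => (hbt i f).const_mul (h i).θ).sub
        ((hS.wnull f).mono_left UF_le)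
      simpa using this
    have e4 : Tendsto (fun N => 9 + ∑ k ∈ Finset.range n, ‖Φ k (x N) - x N‖) (UF : Filter ℕ)
        (𝓝 9) := by
      have := (tendsto_finsetSum (Finset.range n)
        fun k _ => ((hh k).1.2.2.1).mono_left UF_le).const_add 9
      simpa using this
    refine le_of_tendsto_of_tendsto' e3 e4 fun N => ?_
    have m1 := bounded_ineq hB (hS.mem N) hyΦ (fun i => (h i).θ) hθ1 (fun k => by
      rcases (hh k).2.2.2.2.2 with ⟨a1, a2, -⟩ | ⟨a1, a2, -⟩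
      · simp only [a1, one_smul]; exact a2
      · simp only [hΦ, a1, a2, zero_smul, id, sub_zero, norm_zero]; exact (dl_pos k).le) n
    refine (neg_le_abs _).trans (((f.le_opNorm _).trans ?_).trans m1)
    exact mul_le_of_le_one_left (norm_nonneg _) hf
  -- (f)
  obtain ⟨S, hSt⟩ := hR.seq (SS x h) 9 he
  let C : Set X := {v | ∃ m, ∀ r, m ≤ r → (h r).φ v ≤ 1 / 8}
  have hC : Convex ℝ C := by
    rintro v ⟨m, hm⟩ v' ⟨m', hm'⟩ a a' ha ha' haa
    refine ⟨max m m', fun r hr => ?_⟩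
    have h1 := hm r (le_of_max_le_left hr)
    have h2 := hm' r (le_of_max_le_right hr)
    simp only [map_add, map_smul, smul_eq_mul]
    nlinarith
  have hSC : S ∈ closure C := mem_closure_of_weak hSt hC
    (Eventually.of_forall fun n => ⟨n, fun r hr => (le_abs_self _).trans (hb'' r n hr)⟩)
  obtain ⟨v, ⟨m, hm⟩, hv⟩ := Metric.mem_closure_iff.1 hSC (1 / 4) (by norm_num)
  obtain ⟨r, hr, hr1⟩ := hd m
  have h1 : 1 / 2 ≤ (h r).φ S := ge_of_tendsto (hSt _)
    (((eventually_gt_atTop r).filter_mono UF_le).mono fun n hn => (hc n r hn hr1).le)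
  have h2 := (le_abs_self _).trans (hφle r (S - v))
  rw [dist_eq_norm] at hv
  rw [map_sub] at h2
  linarith [hm r hr]

end Crest.Agent.FP
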