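import Mathlib

set_option autoImplicit false
open Filter Topology

namespace Crest.Agent.FP

/-- Reflexivity in ultrafilter form: bounded ultrafilters have weak limits. -/
def Refl (X : Type*) [NormedAddCommGroup X] [NormedSpace ℝ X] : Prop :=
  ∀ (U : Ultrafilter X) (R : ℝ), Metric.closedBall (0 : X) R ∈ U →
    ∃ v : X, ∀ f : X →L[ℝ] ℝ, Tendsto f (U : Filter X) (𝓝 (f v))

variable {X : Type*} [NormedAddCommGroup X] [NormedSpace ℝ X]

/-- nonexpansive self-map of `K` -/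
def NE (K : Set X) (Φ : X → X) : Prop :=
  Set.MapsTo Φ K K ∧ ∀ a ∈ K, ∀ b ∈ K, ‖Φ a - Φ b‖ ≤ ‖a - b‖

/-- What a minimal invariant set of a fixed-point-free nonexpansive map gives
(after translation and scaling). -/
structure Setup (K : Set X) (x : ℕ → X) : Prop where
  closed : IsClosed K
  convex : Convex ℝ K
  zero : (0 : X) ∈ K
  diam : ∀ p ∈ K, ∀ q ∈ K, ‖p - q‖ ≤ 1
  mem : ∀ n, x n ∈ K
  wnull : ∀ f : X →L[ℝ] ℝ, Tendsto (fun n => f (x n)) atTop (𝓝 0)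
  gk : ∀ z ∈ K, Tendsto (fun n => ‖x n - z‖) atTop (𝓝 1)
  dense : ∀ y ∈ K, ∀ ε : ℝ, 0 < ε → ∃ Φ : X → X, NE K Φ ∧ ‖Φ 0 - y‖ ≤ ε ∧
    Tendsto (fun n => ‖Φ (x n) - x n‖) atTop (𝓝 0)

/-- Job A statement. -/
def ExSetup (X : Type*) [NormedAddCommGroup X] [NormedSpace ℝ X] : Prop :=
  ∀ (C : Set X) (F : X → X), C.Nonempty → IsClosed C → Bornology.IsBounded C → Convex ℝ C →
    NE C F → (∀ z ∈ C, F z ≠ z) → ∃ (K : Set X) (x : ℕ → X), Setup K x

/-- averaging along a segment -/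
noncomputable def av (b a : X) (G : X → X) : X → X :=
  fun w => ∫ t in (0 : ℝ)..1, G (w + b + t • a)

end Crest.Agent.FP
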