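import Crest.Agent.FP.Scal

set_option autoImplicit false
open Filter Topology

namespace Crest.Agent.FP

variable {X : Type*} [NormedAddCommGroup X] [NormedSpace ℝ X]

structure Body (K : Set X) : Prop where
  closed : IsClosed K
  convex : Convex ℝ K
  zero : (0 : X) ∈ K
  diam : ∀ p ∈ K, ∀ q ∈ K, ‖p - q‖ ≤ 1

theorem Body.norm_le {K : Set X} (h : Body K) {p : X} (hp : p ∈ K) : ‖p‖ ≤ 1 := by
  simpa using h.diam p hp 0 h.zero

def InS (K : Set X) (ω : ℝ) (w : X) : Prop := ∃ z ∈ K, w = ω • z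

theorem InS.add {K : Set X} (h : Body K) {ω e : ℝ} (hω : 0 ≤ ω) (he : 0 ≤ e) {w w' : X}
    (h1 : InS K ω w) (h2 : InS K e w') : InS K (ω + e) (w + w') := by
  obtain ⟨z, hz, rfl⟩ := h1
  obtain ⟨z', hz', rfl⟩ := h2
  rcases (add_nonneg hω he).eq_or_lt with h0 | h0
  · have : ω = 0 := by linarith
    have : e = 0 := by linarith
    subst_vars
    exact ⟨0, h.zero, by simp⟩
  · refine ⟨(ω / (ω + e)) • z + (e / (ω + e)) • z',
      h.convex hz hz' (by positivity) (by positivity) (by field_simp), ?_⟩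
    rw [smul_add, smul_smul, smul_smul, mul_div_cancel₀ _ h0.ne', mul_div_cancel₀ _ h0.ne']

theorem InS.mono {K : Set X} (h : Body K) {ω e : ℝ} (he : 0 ≤ e) (hle : e ≤ ω) {w : X}
    (h1 : InS K e w) : InS K ω w := by
  have := InS.add h he (sub_nonneg.2 hle) h1 (⟨0, h.zero, rfl⟩ : InS K (ω - e) ((ω - e) • (0 : X)))
  simpa using this

theorem seg_in {K : Set X} (h : Body K) (e : ℝ) {p q : X} (hp : p ∈ K) (hq : q ∈ K) {t : ℝ}
    (ht : t ∈ Set.Icc (0 : ℝ) 1) : InS K e (e • q + t • e • (p - q)) :=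
  ⟨(1 - t) • q + t • p, h.convex hq hp (by linarith [ht.2]) ht.1 (by ring), by module⟩

theorem InS.norm_le {K : Set X} (h : Body K) {e : ℝ} (he : 0 ≤ e) {w : X} (hw : InS K e w) :
    ‖w‖ ≤ e := by
  obtain ⟨z, hz, rfl⟩ := hw
  rw [norm_smul, Real.norm_of_nonneg he]
  exact mul_le_of_le_one_right he (h.norm_le hz)

theorem loc_in {K : Set X} (h : Body K) {ω e : ℝ} (hω : 0 ≤ ω) (he : 0 ≤ e) {p q w : X}
    (hp : p ∈ K) (hq : q ∈ K) (hw : InS K ω w) {t : ℝ} (ht : t ∈ Set.Icc (0 : ℝ) 1) :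
    InS K (ω + e) (w + e • q + t • e • (p - q)) := by
  rw [add_assoc]; exact InS.add h hω he hw (seg_in h e hp hq ht)

/-- invariant of an averaged map -/
def Good (K : Set X) (Φ : X → X) (ω : ℝ) (G : X → X) : Prop :=
  (∀ w, InS K ω w → G w ∈ K) ∧
  (∀ w w', InS K ω w → InS K ω w' → ‖G w - G w'‖ ≤ ‖w - w'‖) ∧
  (∀ w, InS K ω w → ∀ y ∈ K, ‖G w - Φ y‖ ≤ 1 - ω + ‖w - ω • y‖)

theorem good_zero {K : Set X} {Φ : X → X} (h : NE K Φ) : Good K Φ 1 Φ := by
  refine ⟨?_, ?_, ?_⟩
  · rintro _ ⟨z, hz, rfl⟩; rw [one_smul]; exact h.1 hz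
  · rintro _ _ ⟨z, hz, rfl⟩ ⟨z', hz', rfl⟩; simp only [one_smul]; exact h.2 _ hz _ hz'
  · rintro _ ⟨z, hz, rfl⟩ y hy; simp only [one_smul, sub_self, zero_add]; exact h.2 _ hz _ hy

theorem Good.ii {K : Set X} {Φ G : X → X} {ω : ℝ} (hG : Good K Φ ω G) (u a : X)
    (hu : ∀ t ∈ Set.Icc (0 : ℝ) 1, InS K ω (u + t • a)) :
    IntervalIntegrable (fun t : ℝ => G (u + t • a)) MeasureTheory.volume 0 1 := by
  apply ContinuousOn.intervalIntegrable
  rw [Set.uIcc_of_le zero_le_one]
  have : LipschitzOnWith (Real.toNNReal ‖a‖) (fun t : ℝ => G (u + t • a)) (Set.Icc 0 1) := by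
    refine LipschitzOnWith.of_dist_le' fun s hs t ht => ?_
    rw [dist_eq_norm, dist_eq_norm]
    refine (hG.2.1 _ _ (hu s hs) (hu t ht)).trans ?_
    rw [show u + s • a - (u + t • a) = (s - t) • a by module, norm_smul, mul_comm]
  exact this.continuousOn

theorem int_mem [CompleteSpace X] {s : Set X} (hs : Convex ℝ s) (hc : IsClosed s) {f : ℝ → X}
    (hi : IntervalIntegrable f MeasureTheory.volume 0 1) (hf : ∀ t ∈ Set.Icc (0 : ℝ) 1, f t ∈ s) :
    (∫ t in (0 : ℝ)..1, f t) ∈ s := by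
  rw [intervalIntegral.integral_of_le zero_le_one]
  have : MeasureTheory.IsProbabilityMeasure
      (MeasureTheory.volume.restrict (Set.Ioc (0 : ℝ) 1)) := ⟨by simp⟩
  refine hs.integral_mem hc ?_ hi.1
  rw [MeasureTheory.ae_restrict_iff' measurableSet_Ioc]
  exact Eventually.of_forall fun t ht => hf t ⟨ht.1.le, ht.2⟩

theorem Good.step [CompleteSpace X] {K : Set X} (h : Body K) {Φ G : X → X} {ω e : ℝ}
    (hω : 0 ≤ ω) (he : 0 ≤ e) (hG : Good K Φ (ω + e) G) {p q : X} (hp : p ∈ K) (hq : q ∈ K) :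
    Good K Φ ω (av (e • q) (e • (p - q)) G) := by
  have hi : ∀ w, InS K ω w → IntervalIntegrable
      (fun t : ℝ => G (w + e • q + t • e • (p - q))) MeasureTheory.volume 0 1 :=
    fun w hw => hG.ii _ _ fun t ht => loc_in h hω he hp hq hw ht
  refine ⟨fun w hw => ?_, fun w w' hw hw' => ?_, fun w hw y hy => ?_⟩
  · exact int_mem h.convex h.closed (hi w hw) fun t ht => hG.1 _ (loc_in h hω he hp hq hw ht)
  · unfold av
    rw [← intervalIntegral.integral_sub (hi w hw) (hi w' hw')]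
    have := int_mem (convex_closedBall (0 : X) ‖w - w'‖) Metric.isClosed_closedBall
      ((hi w hw).sub (hi w' hw')) (fun t ht => by
        rw [mem_closedBall_zero_iff]
        refine (hG.2.1 _ _ (loc_in h hω he hp hq hw ht) (loc_in h hω he hp hq hw' ht)).trans ?_
        apply le_of_eq; congr 1; abel)
    exact mem_closedBall_zero_iff.1 this
  · have := int_mem (convex_closedBall (Φ y) (1 - ω + ‖w - ω • y‖)) Metric.isClosed_closedBall
      (hi w hw) (fun t ht => by
        rw [Metric.mem_closedBall, dist_eq_norm]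
        refine (hG.2.2 _ (loc_in h hω he hp hq hw ht) y hy).trans ?_
        obtain ⟨z, hz, hz'⟩ := seg_in h e hp hq ht
        have e1 : w + e • q + t • e • (p - q) - (ω + e) • y = (w - ω • y) + e • (z - y) := by
          rw [add_assoc, hz']; module
        rw [e1]
        have h1 := norm_add_le (w - ω • y) (e • (z - y))
        have h2 : ‖e • (z - y)‖ ≤ e := by
          rw [norm_smul, Real.norm_of_nonneg he]
          exact mul_le_of_le_one_right he (h.diam _ hz _ hy)
        linarith)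
    rw [Metric.mem_closedBall, dist_eq_norm] at this
    exact this

theorem Good.near {K : Set X} (h : Body K) {Φ G : X → X} {ω e : ℝ} (he : 0 ≤ e) (hle : e ≤ ω)
    (hG : Good K Φ ω G) {z y : X} (hz : z ∈ K) (hy : y ∈ K) :
    ‖G (e • z) - Φ y‖ ≤ 1 - e + e * ‖z - y‖ := by
  refine (hG.2.2 _ (InS.mono h he hle ⟨z, hz, rfl⟩) y hy).trans ?_
  have e1 : e • z - ω • y = e • (z - y) - (ω - e) • y := by module
  have h1 := norm_sub_le (e • (z - y)) ((ω - e) • y)
  have h2 : ‖(ω - e) • y‖ ≤ ω - e := InS.norm_le h (by linarith) ⟨y, hy, rfl⟩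
  rw [norm_smul, Real.norm_of_nonneg he] at h1
  rw [e1]; linarith

theorem id_step [CompleteSpace X] {G : X → X} (hG : ∀ w w', G w - G w' = w - w') (b a : X) :
    ∀ w w', av b a G w - av b a G w' = w - w' := by
  have hc : Continuous G := by
    have : G = fun w => G 0 + w := funext fun w => by
      have := hG w 0; rw [sub_zero] at this; exact (sub_eq_iff_eq_add'.1 this)
    rw [this]; fun_prop
  intro w w'
  unfold av
  have hi : ∀ u : X, IntervalIntegrable (fun t : ℝ => G (u + b + t • a))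
      MeasureTheory.volume 0 1 := fun u =>
    Continuous.intervalIntegrable (by fun_prop) _ _
  rw [← intervalIntegral.integral_sub (hi w) (hi w')]
  have : ∀ t : ℝ, G (w + b + t • a) - G (w' + b + t • a) = w - w' := fun t => by
    rw [hG]; abel
  simp [this]

theorem norm_le_of_dual (v : X) (C : ℝ) (h : ∀ f : X →L[ℝ] ℝ, ‖f‖ ≤ 1 → f v ≤ C) : ‖v‖ ≤ C := by
  obtain ⟨f, hf, hf'⟩ := exists_dual_vector'' ℝ v
  have := h f hf
  simpa [hf'] using this

/-- Linearisation inequality. -/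
theorem LL [CompleteSpace X] {K : Set X} (h : Body K) {Φ : X → X} (hΦ : NE K Φ) (G : ℕ → X → X)
    (p q : ℕ → X) (e : ℕ → ℝ) (hp : ∀ j, p j ∈ K) (hq : ∀ j, q j ∈ K) (he : ∀ j, 0 ≤ e j)
    (he1 : ∀ n, ∑ j ∈ Finset.range n, e j ≤ 1) (h0 : G 0 = Φ)
    (hs : ∀ j, G (j + 1) = av (e j • q j) (e j • (p j - q j)) (G j)) (n : ℕ) (c : ℕ → ℝ) :
    ‖∑ j ∈ Finset.range n, c j • (G j (e j • p j) - G j (e j • q j))‖ ≤
      ‖∑ j ∈ Finset.range n, c j • e j • (p j - q j)‖
        + 2 * ∑ j ∈ Finset.range n, |c j| * ∑ l ∈ Finset.Ico (j + 1) n, e l := by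
  set ω : ℕ → ℝ := fun j => 1 - ∑ l ∈ Finset.range j, e l with hω
  have hω0 : ∀ j, 0 ≤ ω j := fun j => sub_nonneg.2 (he1 j)
  have hωs : ∀ j, ω j = ω (j + 1) + e j := fun j => by
    simp only [hω, Finset.sum_range_succ]; ring
  have hG : ∀ j, Good K Φ (ω j) (G j) := by
    intro j
    induction j with
    | zero => simpa [hω, h0] using good_zero hΦ
    | succ j ih => rw [hs]; exact Good.step h (hω0 _) (he j) (hωs j ▸ ih) (hp j) (hq j)
  refine norm_le_of_dual _ _ fun f hf => ?_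
  have hl : LipschitzOnWith 1 (fun w => f (Φ w)) K := by
    refine LipschitzOnWith.of_dist_le_mul fun u hu v hv => ?_
    rw [Real.dist_eq, dist_eq_norm, ← map_sub, NNReal.coe_one, one_mul]
    calc _ ≤ ‖f‖ * ‖Φ u - Φ v‖ := f.le_opNorm _
      _ ≤ 1 * ‖u - v‖ := by gcongr; exact hΦ.2 _ hu _ hv
      _ = _ := one_mul _
  obtain ⟨g0, hg0, hg0'⟩ := hl.extend_real
  let g : ℕ → X → ℝ := fun j =>
    Nat.rec g0 (fun j gj => avs (e j • q j) (e j • (p j - q j)) gj) j
  have hg : ∀ j w, InS K (ω j) w → f (G j w) = g j w := by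
    intro j
    induction j with
    | zero =>
      rintro _ ⟨z, hz, rfl⟩
      simp only [hω, Finset.range_zero, Finset.sum_empty, sub_zero, one_smul, h0]
      exact hg0' hz
    | succ j ih =>
      intro w hw
      have hin : ∀ t ∈ Set.Icc (0 : ℝ) 1,
          InS K (ω j) (w + e j • q j + t • e j • (p j - q j)) := fun t ht => by
        rw [hωs j]; exact loc_in h (hω0 _) (he j) (hp j) (hq j) hw ht
      rw [hs]
      show f (∫ t in (0 : ℝ)..1, G j (w + e j • q j + t • e j • (p j - q j)))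
        = ∫ t in (0 : ℝ)..1, g j (w + e j • q j + t • e j • (p j - q j))
      rw [← f.intervalIntegral_comp_comm ((hG j).ii _ _ hin)]
      refine intervalIntegral.integral_congr fun t ht => ?_
      rw [Set.uIcc_of_le zero_le_one] at ht
      exact ih _ (hin t ht)
  have hL : Lip 1 (g 0) := fun u v => by
    have := hg0.dist_le_mul u v
    rwa [Real.dist_eq, dist_eq_norm, NNReal.coe_one] at this
  have := scal g (fun j => e j • (p j - q j)) (fun j => e j • q j) e hL (fun j => rfl)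
    (fun j t ht => InS.norm_le h (he j) (seg_in h _ (hp j) (hq j) ht)) n c
  refine le_trans (le_of_eq ?_) this
  rw [map_sum]
  refine Finset.sum_congr rfl fun j _ => ?_
  have hle : e j ≤ ω j := by rw [hωs j]; linarith [hω0 (j + 1)]
  rw [map_smul, map_sub, hg j _ (InS.mono h (he j) hle ⟨_, hp j, rfl⟩),
    hg j _ (InS.mono h (he j) hle ⟨_, hq j, rfl⟩), smul_eq_mul,
    show e j • q j + e j • (p j - q j) = e j • p j by module]

end Crest.Agent.FP
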