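import Crest.Agent.FP.Defs

/-! Job A: the minimal invariant set of a fixed-point-free nonexpansive map. -/

set_option autoImplicit false
open Filter Topology

namespace Crest.Agent.FP

variable {X : Type*} [NormedAddCommGroup X] [NormedSpace ℝ X]

theorem wlim_mem {𝓕 : Filter X} [𝓕.NeBot] {C : Set X} (h1 : IsClosed C) (h2 : Convex ℝ C)
    (hC : C ∈ 𝓕) {v : X} (hv : ∀ f : X →L[ℝ] ℝ, Tendsto f 𝓕 (𝓝 (f v))) : v ∈ C := by
  by_contra h
  obtain ⟨f, u, h3, h4⟩ := geometric_hahn_banach_point_closed h2 h1 h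
  exact h3.not_ge (ge_of_tendsto (hv f) (mem_of_superset hC fun b hb => (h4 b hb).le))

namespace SetupX

theorem exists_min (hR : Refl X) {C : Set X} {F : X → X} (hne : C.Nonempty) (hcl : IsClosed C)
    (hb : Bornology.IsBounded C) (hcv : Convex ℝ C) (hF : Set.MapsTo F C C) :
    ∃ K ⊆ C, K.Nonempty ∧ IsClosed K ∧ Convex ℝ K ∧ Set.MapsTo F K K ∧
      ∀ S : Set X, IsClosed S → Convex ℝ S → (K ∩ S).Nonempty → (∀ z ∈ K ∩ S, F z ∈ S) → K ⊆ S := by
  obtain ⟨R, hR'⟩ := hb.subset_closedBall 0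
  obtain ⟨K, -, hK⟩ := zorn_superset_nonempty
    {K | K ⊆ C ∧ K.Nonempty ∧ IsClosed K ∧ Convex ℝ K ∧ Set.MapsTo F K K} (fun c hc hch hcn => by
      have : Nonempty c := hcn.to_subtype
      have hnb : NeBot (⨅ s : c, 𝓟 s.1) := iInf_neBot_of_directed' (fun s t => by
        rcases hch.total s.2 t.2 with h | h
        exacts [⟨s, le_rfl, principal_mono.2 h⟩, ⟨t, principal_mono.2 h, le_rfl⟩])
        fun s => principal_neBot_iff.2 (hc s.2).2.1
      have hm : ∀ s ∈ c, s ∈ Ultrafilter.of (⨅ s : c, 𝓟 s.1) := fun s hs =>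
        Ultrafilter.of_le _ (mem_iInf_of_mem ⟨s, hs⟩ (mem_principal_self _))
      obtain ⟨s₀, hs₀⟩ := hcn
      obtain ⟨v, hv⟩ := hR _ R (mem_of_superset (hm s₀ hs₀) ((hc hs₀).1.trans hR'))
      exact ⟨⋂₀ c, ⟨(Set.sInter_subset_of_mem hs₀).trans (hc hs₀).1,
        ⟨v, fun s hs => wlim_mem (hc hs).2.2.1 (hc hs).2.2.2.1 (hm s hs) hv⟩,
        isClosed_sInter fun s hs => (hc hs).2.2.1, convex_sInter fun s hs => (hc hs).2.2.2.1,
        fun z hz s hs => (hc hs).2.2.2.2 (hz s hs)⟩, fun s hs => Set.sInter_subset_of_mem hs⟩)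
    C ⟨subset_rfl, hne, hcl, hcv, hF⟩
  obtain ⟨h1, h2, h3, h4, h5⟩ := hK.1
  exact ⟨K, h1, h2, h3, h4, h5, fun S s1 s2 s3 s4 => (hK.2 (y := K ∩ S)
    ⟨Set.inter_subset_left.trans h1, s3, h3.inter s1, h4.inter s2,
      fun z hz => ⟨h5 hz.1, s4 z hz⟩⟩ Set.inter_subset_left).trans Set.inter_subset_right⟩

theorem afp [CompleteSpace X] {K : Set X} {F : X → X} (hne : K.Nonempty) (hcl : IsClosed K)
    (hcv : Convex ℝ K) (hF : NE K F) {d : ℝ} (hd : ∀ p ∈ K, ∀ q ∈ K, ‖p - q‖ ≤ d) {ε : ℝ}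
    (h0 : 0 < ε) (h1 : ε ≤ 1) : ∃ z ∈ K, ‖F z - z‖ ≤ ε * d := by
  obtain ⟨z₀, hz₀⟩ := hne
  have hm : Set.MapsTo (fun z => ε • z₀ + (1 - ε) • F z) K K := fun z hz =>
    hcv hz₀ (hF.1 hz) h0.le (by linarith) (by ring)
  obtain ⟨z, hz, hfix, -⟩ := ContractingWith.exists_fixedPoint' (K := ⟨1 - ε, by linarith⟩)
    hcl.isComplete hm ⟨by change 1 - ε < 1; linarith, LipschitzWith.of_dist_le_mul fun a b => by
      change dist (ε • z₀ + (1 - ε) • F a) (ε • z₀ + (1 - ε) • F b) ≤ (1 - ε) * dist a.1 b.1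
      rw [dist_add_left, dist_eq_norm, dist_eq_norm, ← smul_sub, norm_smul,
        Real.norm_of_nonneg (by linarith)]
      exact mul_le_mul_of_nonneg_left (hF.2 _ a.2 _ b.2) (by linarith)⟩ hz₀ (edist_ne_top _ _)
  refine ⟨z, hz, ?_⟩
  have e : F z - z = ε • (F z - z₀) := by
    nth_rw 2 [← hfix.eq]; module
  rw [e, norm_smul, Real.norm_of_nonneg h0.le]
  exact mul_le_mul_of_nonneg_left (hd _ (hF.1 hz) _ hz₀) h0.le

theorem subseq (hR : Refl X) (z : ℕ → X) {R : ℝ} (hz : ∀ n, z n ∈ Metric.closedBall (0 : X) R) :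
    ∃ (w : X) (φ : ℕ → ℕ), Tendsto φ atTop atTop ∧
      ∀ f : X →L[ℝ] ℝ, Tendsto (fun n => f (z (φ n))) atTop (𝓝 (f w)) := by
  let Y := (Submodule.span ℝ (Set.range z)).topologicalClosure
  have hY : ∀ n, z n ∈ Y := fun n =>
    Submodule.le_topologicalClosure _ (Submodule.subset_span ⟨n, rfl⟩)
  have hcl : IsClosed (Y : Set X) := Submodule.isClosed_topologicalClosure _
  obtain ⟨c, hc, hYc⟩ : TopologicalSpace.IsSeparable (Y : Set X) :=
    ((Set.countable_range z).isSeparable.span (R := ℝ)).closure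
  obtain ⟨a, rfl⟩ := hc.exists_eq_range (closure_nonempty_iff.1 ⟨0, hYc Y.zero_mem⟩)
  choose g hg1 hg2 using fun k => exists_dual_vector'' ℝ (a k)
  obtain ⟨w, hw⟩ := hR ((hyperfilter ℕ).map z) R (mem_map.2 (univ_mem' hz))
  have hwY : w ∈ Y := wlim_mem hcl Y.convex (mem_map.2 (univ_mem' hY)) hw
  have h1 : ∀ i : ℕ, ∃ n, i ≤ n ∧ ∀ k ∈ Finset.range i, dist (g k (z n)) (g k w) < 1 / (i + 1) :=
    fun i => by
      have e1 : ∀ᶠ n in (hyperfilter ℕ : Filter ℕ), i ≤ n :=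
        Nat.hyperfilter_le_atTop (eventually_ge_atTop i)
      refine (e1.and ((eventually_all_finset _).2 fun k _ => ?_)).exists
      exact Metric.tendsto_nhds.1 ((hw (g k)).comp tendsto_map) _ Nat.one_div_pos_of_nat
  choose φ hφ1 hφ2 using h1
  have h2 : ∀ k, Tendsto (fun n => g k (z (φ n))) atTop (𝓝 (g k w)) := fun k => by
    rw [tendsto_iff_dist_tendsto_zero]
    exact squeeze_zero' (Eventually.of_forall fun _ => dist_nonneg)
      ((eventually_gt_atTop k).mono fun i hi => (hφ2 i k (Finset.mem_range.2 hi)).le)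
      tendsto_one_div_add_atTop_nhds_zero_nat
  refine ⟨w, φ, tendsto_atTop_mono hφ1 tendsto_id, fun f =>
    (tendsto_iff_ultrafilter _ _ _).2 fun V hV => ?_⟩
  obtain ⟨v, hv⟩ := hR (V.map fun n => z (φ n)) R (mem_map.2 (univ_mem' fun _ => hz _))
  have hvY : v ∈ Y := wlim_mem hcl Y.convex (mem_map.2 (univ_mem' fun _ => hY _)) hv
  have h3 : ∀ k, g k v = g k w := fun k =>
    tendsto_nhds_unique ((hv (g k)).comp tendsto_map) ((h2 k).mono_left hV)
  have h4 : v - w = 0 := by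
    refine norm_le_zero_iff.1 (le_of_forall_pos_le_add fun ε hε => ?_)
    obtain ⟨_, ⟨k, rfl⟩, hk⟩ := Metric.mem_closure_iff.1 (hYc (Y.sub_mem hvY hwY)) (ε / 2)
      (by positivity)
    have e1 : ‖a k‖ = g k (a k - (v - w)) := by
      rw [map_sub, map_sub, h3, sub_self, sub_zero, hg2]; rfl
    have e2 := ((le_abs_self _).trans ((g k).le_opNorm (a k - (v - w)))).trans
      (mul_le_of_le_one_left (norm_nonneg _) (hg1 k))
    have e3 := norm_sub_norm_le (v - w) (a k)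
    rw [dist_eq_norm] at hk
    rw [norm_sub_rev] at e2
    linarith
  rw [← sub_eq_zero.1 h4]
  exact (hv f).comp tendsto_map

end SetupX

open SetupX in
theorem exSetup [CompleteSpace X] (hR : Refl X) : ExSetup X := by
  intro C F hne hcl hb hcv hF hfix
  obtain ⟨K, hKC, k1, k2, k3, k4, hmin⟩ := exists_min hR hne hcl hb hcv hF.1
  have hFK : NE K F := ⟨k4, fun a ha b hb => hF.2 a (hKC ha) b (hKC hb)⟩
  have hbK := hb.subset hKC
  set d := Metric.diam K
  have hd : ∀ p ∈ K, ∀ q ∈ K, ‖p - q‖ ≤ d := fun p hp q hq => by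
    rw [← dist_eq_norm]; exact Metric.dist_le_diam_of_mem hbK hp hq
  obtain ⟨z₀, hz₀⟩ := id k1
  have hd0 : 0 < d := (norm_pos_iff.2 (sub_ne_zero.2 (hfix z₀ (hKC hz₀)))).trans_le
    (hd _ (k4 hz₀) _ hz₀)
  have hdiam : ∀ w ∈ K, ∀ r, (∀ y ∈ K, ‖w - y‖ ≤ r) → d ≤ r := fun w hw r hr => by
    have := hmin (⋂ y ∈ K, Metric.closedBall y r)
      (isClosed_biInter fun _ _ => Metric.isClosed_closedBall)
      (convex_iInter₂ fun _ _ => convex_closedBall _ _)
      ⟨w, hw, Set.mem_iInter₂.2 fun y hy => mem_closedBall_iff_norm.2 (hr y hy)⟩ fun z hz => by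
        have h1 : ∀ y ∈ K, F y ∈ Metric.closedBall (F z) r := fun y hy =>
          mem_closedBall_iff_norm'.2 ((hFK.2 _ hz.1 _ hy).trans
            (mem_closedBall_iff_norm.1 (Set.mem_iInter₂.1 hz.2 y hy)))
        exact Set.mem_iInter₂.2 fun y hy => Metric.mem_closedBall_comm.1
          (hmin _ Metric.isClosed_closedBall (convex_closedBall _ _) ⟨_, k4 hz₀, h1 _ hz₀⟩
            (fun y hy => h1 y hy.1) hy)
    exact Metric.diam_le_of_forall_dist_le ((norm_nonneg _).trans (hr w hw))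
      fun p hp q hq => Set.mem_iInter₂.1 (this hp) q hq
  choose z hz1 hz2 using fun n : ℕ => afp k1 k2 k3 hFK hd (ε := 1 / (n + 1)) Nat.one_div_pos_of_nat
    (by rw [div_le_one (by positivity)]; linarith [n.cast_nonneg (α := ℝ)])
  obtain ⟨R, hR'⟩ := hbK.subset_closedBall 0
  obtain ⟨w, φ, hφ, hw⟩ := subseq hR z fun n => hR' (hz1 n)
  set x : ℕ → X := fun n => z (φ n) with hx
  have hxK : ∀ n, x n ∈ K := fun n => hz1 _
  have hw' : ∀ f : X →L[ℝ] ℝ, Tendsto f (map x atTop) (𝓝 (f w)) := fun f => hw f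
  have hwK : w ∈ K := wlim_mem k2 k3 (mem_map.2 (univ_mem' hxK)) hw'
  have hafp : Tendsto (fun n => ‖F (x n) - x n‖) atTop (𝓝 0) := by
    have := (tendsto_one_div_add_atTop_nhds_zero_nat (𝕜 := ℝ)).mul_const d
    rw [zero_mul] at this
    exact (squeeze_zero (fun _ => norm_nonneg _) hz2 this).comp hφ
  have hgk : ∀ y ∈ K, Tendsto (fun n => ‖x n - y‖) atTop (𝓝 d) := fun y hy => by
    refine tendsto_order.2 ⟨fun r hr => ?_, fun r hr =>
      Eventually.of_forall fun n => (hd _ (hxK n) _ hy).trans_lt hr⟩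
    by_contra hcon
    rw [not_eventually, frequently_iff_neBot] at hcon
    set V := atTop ⊓ 𝓟 {n | ¬r < ‖x n - y‖}
    have hV : V ≤ atTop := inf_le_left
    have := hmin {z | ∀ ε > 0, ∀ᶠ n in V, z ∈ Metric.closedBall (x n) (r + ε)}
      (isClosed_of_closure_subset fun z hz ε hε => by
        obtain ⟨z', h1, h2⟩ := Metric.mem_closure_iff.1 hz (ε / 2) (by positivity)
        filter_upwards [h1 (ε / 2) (by positivity)] with n hn
        rw [Metric.mem_closedBall] at hn ⊢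
        linarith [dist_triangle z z' (x n)])
      (fun z h1 z' h2 a b ha hb hab ε hε => by
        filter_upwards [h1 ε hε, h2 ε hε] with n e1 e2 using convex_closedBall _ _ e1 e2 ha hb hab)
      ⟨y, hy, fun ε hε => mem_inf_of_right (mem_principal.2 fun n hn =>
        mem_closedBall_iff_norm'.2 ((not_lt.1 hn).trans (by linarith)))⟩ fun z hz ε hε => by
        filter_upwards [hz.2 (ε / 2) (by positivity),
          hV (hafp.eventually (ge_mem_nhds (half_pos hε)))] with n e1 e2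
        rw [mem_closedBall_iff_norm] at e1 ⊢
        have e3 := hFK.2 _ hz.1 _ (hxK n)
        have e4 := norm_sub_le_norm_sub_add_norm_sub (F z) (F (x n)) (x n)
        linarith
    refine hr.not_ge (hdiam w hwK r fun p hp => le_of_forall_pos_le_add fun ε hε => ?_)
    exact mem_closedBall_iff_norm.1 (wlim_mem (𝓕 := map x V) Metric.isClosed_closedBall
      (convex_closedBall _ _) (mem_map.2 ((this hp ε hε).mono fun n hn =>
        Metric.mem_closedBall_comm.1 hn)) fun f => (hw' f).mono_left (map_mono hV))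
  have hden := hmin (closure {y | ∃ Φ : X → X, NE K Φ ∧
      Tendsto (fun n => ‖Φ (x n) - x n‖) atTop (𝓝 0) ∧ Φ w = y}) isClosed_closure
    (Convex.closure (by
      rintro _ ⟨Φ, h1, h2, rfl⟩ _ ⟨Ψ, h3, h4, rfl⟩ a b ha hb hab
      have key : ∀ p q r s : X, ‖a • p + b • q - (a • r + b • s)‖ ≤ a * ‖p - r‖ + b * ‖q - s‖ :=
        fun p q r s => by
          rw [show a • p + b • q - (a • r + b • s) = a • (p - r) + b • (q - s) by module]
          exact (norm_add_le _ _).trans (by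
            rw [norm_smul, norm_smul, Real.norm_of_nonneg ha, Real.norm_of_nonneg hb])
      refine ⟨fun p => a • Φ p + b • Ψ p, ⟨fun p hp => k3 (h1.1 hp) (h3.1 hp) ha hb hab,
        fun p hp q hq => (key _ _ _ _).trans ?_⟩, ?_, rfl⟩
      · have := add_le_add (mul_le_mul_of_nonneg_left (h1.2 p hp q hq) ha)
          (mul_le_mul_of_nonneg_left (h3.2 p hp q hq) hb)
        rwa [← add_mul, hab, one_mul] at this
      · have := (h2.const_mul a).add (h4.const_mul b)
        rw [mul_zero, mul_zero, add_zero] at this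
        refine squeeze_zero (fun _ => norm_nonneg _) (fun n => ?_) this
        simpa only [← add_smul, hab, one_smul] using key (Φ (x n)) (Ψ (x n)) (x n) (x n)))
    ⟨w, hwK, subset_closure ⟨id, ⟨fun _ h => h, fun _ _ _ _ => le_rfl⟩, by simp, rfl⟩⟩
    fun y hy => Metric.mem_closure_iff.2 fun ε hε => by
      obtain ⟨_, ⟨Φ, h1, h2, rfl⟩, h3⟩ := Metric.mem_closure_iff.1 hy.2 ε hε
      refine ⟨_, ⟨F ∘ Φ, ⟨k4.comp h1.1, fun p hp q hq =>
        (hFK.2 _ (h1.1 hp) _ (h1.1 hq)).trans (h1.2 p hp q hq)⟩, ?_, rfl⟩, ?_⟩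
      · have := h2.add hafp
        rw [add_zero] at this
        refine squeeze_zero (fun _ => norm_nonneg _) (fun n => ?_) this
        exact (norm_sub_le_norm_sub_add_norm_sub _ (F (x n)) _).trans
          (add_le_add_left (hFK.2 _ (h1.1 (hxK n)) _ (hxK n)) _)
      · rw [dist_eq_norm] at h3 ⊢
        exact (hFK.2 _ hy.1 _ (h1.1 hwK)).trans_lt h3
  have n1 : ∀ p q : X, ‖(w + d • p) - (w + d • q)‖ = d * ‖p - q‖ := fun p q => by
    rw [add_sub_add_left_eq_sub, ← smul_sub, norm_smul, Real.norm_of_nonneg hd0.le]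
  have n2 : ∀ p : X, w + d • d⁻¹ • (p - w) = p := fun p => by
    rw [smul_inv_smul₀ hd0.ne', add_sub_cancel]
  have n3 : ∀ p q : X, ‖d⁻¹ • (p - w) - q‖ = d⁻¹ * ‖p - (w + d • q)‖ := fun p q => by
    rw [eq_inv_mul_iff_mul_eq₀ hd0.ne', ← n1, n2]
  refine ⟨{y | w + d • y ∈ K}, fun n => d⁻¹ • (x n - w), k2.preimage (by fun_prop),
    fun p hp q hq a b ha hb hab => ?_, by simpa using hwK, fun p hp q hq => ?_,
    fun n => by simpa only [Set.mem_ofPred_eq, n2] using hxK n, fun f => ?_, fun y hy => ?_,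
    fun y hy ε hε => ?_⟩
  · have := k3 hp hq ha hb hab
    rwa [show a • (w + d • p) + b • (w + d • q) = (a + b) • w + d • (a • p + b • q) by module, hab,
      one_smul] at this
  · have := hd _ hp _ hq
    rw [n1] at this
    nlinarith
  · have := ((hw f).sub_const (f w)).const_mul d⁻¹
    rw [sub_self, mul_zero] at this
    simpa using this
  · have := (hgk _ hy).const_mul d⁻¹
    rw [inv_mul_cancel₀ hd0.ne'] at this
    simpa only [n3] using this
  · obtain ⟨_, ⟨Φ, h1, h2, rfl⟩, h3⟩ := Metric.mem_closure_iff.1 (hden hy) (d * ε) (by positivity)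
    refine ⟨fun p => d⁻¹ • (Φ (w + d • p) - w), ⟨fun p hp => ?_, fun p hp q hq => ?_⟩, ?_, ?_⟩
    · simpa only [Set.mem_ofPred_eq, n2] using h1.1 hp
    · rw [n3, n2, inv_mul_le_iff₀ hd0, ← n1]
      exact h1.2 _ hp _ hq
    · rw [n3, smul_zero, add_zero, inv_mul_le_iff₀ hd0, ← dist_eq_norm, dist_comm]
      exact h3.le
    · have := h2.const_mul d⁻¹
      rw [mul_zero] at this
      simpa only [n3, n2] using this

end Crest.Agent.FP
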