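import Crest.Agent.FP.Core
import Crest.Agent.FP.Setup

set_option autoImplicit false
open Filter Topology

namespace Crest.Agent.FP

variable {X : Type*} [NormedAddCommGroup X] [NormedSpace ℝ X]

theorem refl_of_surj (hX : Function.Surjective (NormedSpace.inclusionInDoubleDual ℝ X)) :
    Refl X := by
  intro U R hU
  have hex : ∀ f : X →L[ℝ] ℝ, ∃ r : ℝ, Tendsto f (U : Filter X) (𝓝 r) ∧ |r| ≤ ‖f‖ * R := by
    intro f
    have hm : Metric.closedBall (0 : ℝ) (‖f‖ * R) ∈ U.map f := by
      rw [Ultrafilter.mem_map]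
      refine Filter.mem_of_superset hU fun v hv => ?_
      rw [mem_closedBall_zero_iff] at hv
      show f v ∈ Metric.closedBall (0 : ℝ) (‖f‖ * R)
      rw [mem_closedBall_zero_iff]
      exact (f.le_opNorm v).trans (mul_le_mul_of_nonneg_left hv (norm_nonneg _))
    obtain ⟨r, hr, hr'⟩ := (isCompact_closedBall (0 : ℝ) (‖f‖ * R)).ultrafilter_le_nhds (U.map f)
      (Filter.le_principal_iff.2 hm)
    exact ⟨r, hr', by simpa using hr⟩
  choose r hr hr' using hex
  let L : (X →L[ℝ] ℝ) →ₗ[ℝ] ℝ :=
    { toFun := r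
      map_add' := fun f g => tendsto_nhds_unique (hr (f + g)) ((hr f).add (hr g))
      map_smul' := fun c f => tendsto_nhds_unique (hr (c • f)) ((hr f).const_smul c) }
  obtain ⟨v, hv⟩ := hX (L.mkContinuous R fun f => by rw [mul_comm]; exact hr' f)
  refine ⟨v, fun f => ?_⟩
  have : f v = r f := by
    have := congrArg (fun ξ => ξ f) hv
    exact this
  rw [this]; exact hr f

end Crest.Agent.FP
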