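import Crest.Agent.FP.Defs

set_option autoImplicit false
open Filter Topology

namespace Crest.Agent.FP

variable {X : Type*} [NormedAddCommGroup X] [NormedSpace ℝ X]

def Lip (L : ℝ) (g : X → ℝ) : Prop := ∀ u v, |g u - g v| ≤ L * ‖u - v‖

omit [NormedSpace ℝ X] in
theorem Lip.cont {L : ℝ} {g : X → ℝ} (h : Lip L g) : Continuous g := by
  have : LipschitzWith (Real.toNNReal L) g :=
    LipschitzWith.of_dist_le' fun u v => by
      rw [Real.dist_eq, dist_eq_norm]; exact h u v
  exact this.continuous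

noncomputable def avs (b a : X) (g : X → ℝ) : X → ℝ :=
  fun w => ∫ t in (0 : ℝ)..1, g (w + b + t • a)

theorem ii {g : X → ℝ} (hg : Continuous g) (w a : X) (s t : ℝ) :
    IntervalIntegrable (fun τ : ℝ => g (w + τ • a)) MeasureTheory.volume s t :=
  (hg.comp (by fun_prop)).intervalIntegrable _ _

theorem abs_int_le {f : ℝ → ℝ} {C : ℝ} (h : ∀ t ∈ Set.Icc (0 : ℝ) 1, |f t| ≤ C) :
    |∫ t in (0 : ℝ)..1, f t| ≤ C := by
  have := intervalIntegral.norm_integral_le_of_norm_le_const (a := 0) (b := 1) (C := C) (f := f)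
    (fun t ht => by
      rw [Set.uIoc_of_le zero_le_one] at ht
      exact h t ⟨ht.1.le, ht.2⟩)
  simpa using this

theorem Lip.avs {L : ℝ} {g : X → ℝ} (h : Lip L g) (b a : X) : Lip L (avs b a g) := by
  intro u v
  unfold FP.avs
  rw [← intervalIntegral.integral_sub (ii h.cont _ _ _ _) (ii h.cont _ _ _ _)]
  refine abs_int_le fun t _ => ?_
  have := h (u + b + t • a) (v + b + t • a)
  rwa [show u + b + t • a - (v + b + t • a) = u - v by abel] at this

def Sm (g : X → ℝ) (a : X) (D : X → ℝ) : Prop :=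
  (∀ w (s : ℝ), |g (w + s • a) - g w - s * D w| ≤ 2 * ‖a‖ * s ^ 2) ∧ Lip 2 D

theorem short {g : X → ℝ} (h : Lip 1 g) (w a : X) (r s : ℝ) :
    |(∫ t in r..(r + s), g (w + t • a)) - s * g (w + r • a)| ≤ ‖a‖ * s ^ 2 := by
  have h1 : (∫ t in r..(r + s), g (w + t • a)) - s * g (w + r • a)
      = ∫ t in r..(r + s), (g (w + t • a) - g (w + r • a)) := by
    rw [intervalIntegral.integral_sub (ii h.cont _ _ _ _) (by simp)]
    simp
  rw [h1]
  have := intervalIntegral.norm_integral_le_of_norm_le_const (a := r) (b := r + s)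
    (C := ‖a‖ * |s|) (f := fun t => g (w + t • a) - g (w + r • a)) (fun t ht => by
      have h2 := h (w + t • a) (w + r • a)
      rw [show w + t • a - (w + r • a) = (t - r) • a by rw [sub_smul]; abel, norm_smul,
        one_mul] at h2
      have h3 : |t - r| ≤ |s| := by
        have := Set.abs_sub_left_of_mem_uIcc (Set.uIoc_subset_uIcc ht)
        simpa using this
      rw [Real.norm_eq_abs] at h2 ⊢
      calc _ ≤ |t - r| * ‖a‖ := h2
        _ ≤ |s| * ‖a‖ := by gcongr
        _ = _ := by ring)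
  rw [Real.norm_eq_abs, show r + s - r = s by ring] at this
  calc _ ≤ ‖a‖ * |s| * |s| := this
    _ = ‖a‖ * s ^ 2 := by rw [mul_assoc, ← sq, sq_abs]

theorem sm_av {g : X → ℝ} (h : Lip 1 g) (b a : X) :
    Sm (avs b a g) a (fun w => g (w + b + a) - g (w + b)) := by
  refine ⟨fun w s => ?_, fun u v => ?_⟩
  · unfold avs
    have e1 : (∫ t in (0 : ℝ)..1, g (w + s • a + b + t • a))
        = ∫ t in (0 + s : ℝ)..(1 + s), g (w + b + t • a) := by
      rw [← intervalIntegral.integral_comp_add_right (fun t => g (w + b + t • a)) s]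
      congr 1; funext t; congr 1; rw [add_smul]; abel
    have e2 : (∫ t in (0 + s : ℝ)..(1 + s), g (w + b + t • a))
        - (∫ t in (0 : ℝ)..1, g (w + b + t • a))
        = (∫ t in (1 : ℝ)..(1 + s), g (w + b + t • a))
          - (∫ t in (0 : ℝ)..(0 + s), g (w + b + t • a)) := by
      exact intervalIntegral.integral_interval_sub_interval_comm' (ii h.cont _ _ _ _)
        (ii h.cont _ _ _ _) (ii h.cont _ _ _ _)
    rw [e1, e2]
    have h1 := short h (w + b) a 1 s
    have h0 := short h (w + b) a 0 s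
    simp only [one_smul, zero_smul, add_zero] at h1 h0
    rw [abs_le] at h1 h0 ⊢
    constructor <;> nlinarith [h1.1, h1.2, h0.1, h0.2]
  · have h1 := h (u + b + a) (v + b + a)
    have h2 := h (u + b) (v + b)
    rw [show u + b + a - (v + b + a) = u - v by abel] at h1
    rw [show u + b - (v + b) = u - v by abel] at h2
    rw [abs_le] at h1 h2 ⊢
    constructor <;> linarith [h1.1, h1.2, h2.1, h2.2]

theorem sm_step {g D : X → ℝ} {a : X} (h : Lip 1 g) (hs : Sm g a D) (b' a' : X) :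
    Sm (avs b' a' g) a (avs b' a' D) := by
  refine ⟨fun w s => ?_, hs.2.avs _ _⟩
  unfold avs
  rw [← intervalIntegral.integral_sub (ii h.cont _ _ _ _) (ii h.cont _ _ _ _),
    ← intervalIntegral.integral_const_mul,
    ← intervalIntegral.integral_sub ((ii h.cont _ _ _ _).sub (ii h.cont _ _ _ _))
      ((ii hs.2.cont _ _ _ _).const_mul _)]
  refine abs_int_le fun t _ => ?_
  have := hs.1 (w + b' + t • a') s
  rwa [show w + b' + t • a' + s • a = w + s • a + b' + t • a' by abel] at this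

theorem av_close {D : X → ℝ} (h : Lip 2 D) (b a : X) (β : ℝ)
    (hβ : ∀ t ∈ Set.Icc (0 : ℝ) 1, ‖b + t • a‖ ≤ β) (w : X) : |avs b a D w - D w| ≤ 2 * β := by
  unfold avs
  have e : (∫ t in (0 : ℝ)..1, D (w + b + t • a)) - D w
      = ∫ t in (0 : ℝ)..1, (D (w + b + t • a) - D w) := by
    rw [intervalIntegral.integral_sub (ii h.cont _ _ _ _) (by simp)]
    simp
  rw [e]
  refine abs_int_le fun t ht => ?_
  have := h (w + b + t • a) w
  rw [show w + b + t • a - w = b + t • a by abel] at this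
  linarith [hβ t ht]

theorem sum_le {G : X → ℝ} (hG : Lip 1 G) (a : ℕ → X) (D : ℕ → X → ℝ) (n : ℕ)
    (h : ∀ j < n, Sm G (a j) (D j)) (c : ℕ → ℝ) :
    ∑ j ∈ Finset.range n, c j * D j 0 ≤ ‖∑ j ∈ Finset.range n, c j • a j‖ := by
  have key : ∀ m ≤ n, ∃ C : ℝ, 0 ≤ C ∧ ∀ s : ℝ,
      |G (s • ∑ j ∈ Finset.range m, c j • a j) - G 0
        - s * ∑ j ∈ Finset.range m, c j * D j 0| ≤ C * s ^ 2 := by
    intro m
    induction m with
    | zero => intro _; exact ⟨0, le_rfl, fun s => by simp⟩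
    | succ m ih =>
      intro hm
      obtain ⟨C, hC, hC'⟩ := ih (by omega)
      set v := ∑ j ∈ Finset.range m, c j • a j with hv
      refine ⟨C + 2 * ‖a m‖ * c m ^ 2 + 2 * |c m| * ‖v‖, by positivity, fun s => ?_⟩
      rw [Finset.sum_range_succ, Finset.sum_range_succ, ← hv, smul_add, smul_smul]
      obtain ⟨h1, h2⟩ := h m (by omega)
      have a1 := h1 (s • v) (s * c m)
      have a2 := h2 (s • v) 0
      have a3 := hC' s
      rw [sub_zero, norm_smul, Real.norm_eq_abs] at a2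
      have a4 : |s * c m * D m (s • v) - s * c m * D m 0| ≤ 2 * |c m| * ‖v‖ * s ^ 2 := by
        rw [← mul_sub, abs_mul, abs_mul]
        calc |s| * |c m| * |D m (s • v) - D m 0| ≤ |s| * |c m| * (2 * (|s| * ‖v‖)) := by gcongr
          _ = 2 * |c m| * ‖v‖ * |s| ^ 2 := by ring
          _ = _ := by rw [sq_abs]
      rw [abs_le] at a1 a3 a4 ⊢
      constructor <;> nlinarith [a1.1, a1.2, a3.1, a3.2, a4.1, a4.2]
  obtain ⟨C, hC, hC'⟩ := key n le_rfl
  set v := ∑ j ∈ Finset.range n, c j • a j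
  set r := ∑ j ∈ Finset.range n, c j * D j 0
  refine le_of_forall_pos_le_add fun ε hε => ?_
  have hs : 0 < ε / (C + 1) := by positivity
  set s := ε / (C + 1) with hsd
  have h1 := hC' s
  have h2 := hG (s • v) 0
  rw [sub_zero, norm_smul, Real.norm_eq_abs, abs_of_pos hs] at h2
  rw [abs_le] at h1 h2
  have h3 : s * r ≤ s * (‖v‖ + C * s) := by nlinarith [h1.1, h2.2]
  have h4 : r ≤ ‖v‖ + C * s := le_of_mul_le_mul_left h3 hs
  have h5 : C * s ≤ ε := by
    rw [hsd, mul_div_assoc', div_le_iff₀ (by positivity)]; nlinarith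
  linarith

theorem scal (g : ℕ → X → ℝ) (a b : ℕ → X) (β : ℕ → ℝ) (h0 : Lip 1 (g 0))
    (hs : ∀ j, g (j + 1) = avs (b j) (a j) (g j))
    (hβ : ∀ j, ∀ t ∈ Set.Icc (0 : ℝ) 1, ‖b j + t • a j‖ ≤ β j) (n : ℕ) (c : ℕ → ℝ) :
    ∑ j ∈ Finset.range n, c j * (g j (b j + a j) - g j (b j)) ≤
      ‖∑ j ∈ Finset.range n, c j • a j‖
        + 2 * ∑ j ∈ Finset.range n, |c j| * ∑ l ∈ Finset.Ico (j + 1) n, β l := by
  have hL : ∀ j, Lip 1 (g j) := by
    intro j
    induction j with
    | zero => exact h0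
    | succ j ih => rw [hs]; exact ih.avs _ _
  have hD : ∀ j m, ∃ D, Sm (g (j + 1 + m)) (a j) D ∧
      |D 0 - (g j (b j + a j) - g j (b j))| ≤ 2 * ∑ l ∈ Finset.Ico (j + 1) (j + 1 + m), β l := by
    intro j m
    induction m with
    | zero =>
      refine ⟨_, by rw [add_zero, hs]; exact sm_av (hL j) _ _, by simp⟩
    | succ m ih =>
      obtain ⟨D, hD1, hD2⟩ := ih
      refine ⟨avs (b (j + 1 + m)) (a (j + 1 + m)) D, ?_, ?_⟩
      · rw [← add_assoc, hs]; exact sm_step (hL _) hD1 _ _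
      · rw [← add_assoc, Finset.sum_Ico_succ_top (by omega)]
        have := av_close hD1.2 _ _ _ (hβ (j + 1 + m)) 0
        rw [abs_le] at this hD2 ⊢
        constructor <;> linarith [this.1, this.2, hD2.1, hD2.2]
  have hD' : ∀ j, ∃ D, j < n → Sm (g n) (a j) D ∧
      |D 0 - (g j (b j + a j) - g j (b j))| ≤ 2 * ∑ l ∈ Finset.Ico (j + 1) n, β l := by
    intro j
    by_cases hj : j < n
    · obtain ⟨D, hD⟩ := hD j (n - (j + 1))
      rw [show j + 1 + (n - (j + 1)) = n by omega] at hD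
      exact ⟨D, fun _ => hD⟩
    · exact ⟨fun _ => 0, fun h => absurd h hj⟩
  choose D hD' using hD'
  have h1 := sum_le (hL n) a D n (fun j hj => (hD' j hj).1) c
  have h2 : ∑ j ∈ Finset.range n, c j * (g j (b j + a j) - g j (b j)) ≤
      ∑ j ∈ Finset.range n, (c j * D j 0 + 2 * (|c j| * ∑ l ∈ Finset.Ico (j + 1) n, β l)) := by
    refine Finset.sum_le_sum fun j hj => ?_
    have h3 := (hD' j (Finset.mem_range.1 hj)).2
    have h4 : c j * ((g j (b j + a j) - g j (b j)) - D j 0)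
        ≤ |c j| * (2 * ∑ l ∈ Finset.Ico (j + 1) n, β l) := by
      refine (le_abs_self _).trans ?_
      rw [abs_mul, abs_sub_comm]; gcongr
    nlinarith
  rw [Finset.sum_add_distrib, ← Finset.mul_sum] at h2
  linarith

end Crest.Agent.FP
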