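import Crest.Agent.FP.LL

set_option autoImplicit false
open Filter Topology

namespace Crest.Agent.FP

variable {X : Type*} [NormedAddCommGroup X] [NormedSpace ℝ X]

noncomputable def dl (i : ℕ) : ℝ := (1 / 2) ^ i

noncomputable def eps : ℕ → ℝ
  | 0 => 1
  | i + 1 => dl i * eps i ^ (i + 1) / 4

theorem dl_pos (i : ℕ) : 0 < dl i := by unfold dl; positivity
theorem dl_le (i : ℕ) : dl i ≤ 1 := pow_le_one₀ (by norm_num) (by norm_num)
theorem dl_succ (i : ℕ) : dl (i + 1) = dl i / 2 := by unfold dl; rw [pow_succ]; ring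

theorem eps_pos (i : ℕ) : 0 < eps i := by
  induction i with
  | zero => simp [eps]
  | succ i ih => have := dl_pos i; simp only [eps]; positivity

theorem eps_aux (i : ℕ) (h : eps i ≤ 1) : eps (i + 1) ≤ eps i / 4 := by
  have h0 := eps_pos i
  have h1 : eps i ^ i ≤ 1 := pow_le_one₀ h0.le h
  have h2 : dl i * eps i ^ i ≤ 1 := mul_le_one₀ (dl_le i) (by positivity) h1
  simp only [eps, pow_succ]
  nlinarith

theorem eps_le (i : ℕ) : eps i ≤ 1 := by
  induction i with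
  | zero => simp [eps]
  | succ i ih => linarith [eps_aux i ih]

theorem eps_half (i : ℕ) : eps (i + 1) ≤ eps i / 2 := by
  linarith [eps_aux i (eps_le i), eps_pos i]

theorem eps_anti : Antitone eps :=
  antitone_nat_of_succ_le fun i => by linarith [eps_half i, eps_pos i]

theorem eps_pow_anti {i j : ℕ} (h : j ≤ i) : eps i ^ i ≤ eps j ^ j :=
  (pow_le_pow_of_le_one (eps_pos i).le (eps_le i) h).trans
    (pow_le_pow_left₀ (eps_pos i).le (eps_anti h) j)

theorem tail_half (f : ℕ → ℝ) (h : ∀ i, f (i + 1) ≤ f i / 2) (a n : ℕ) (hn : a ≤ n) :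
    ∑ l ∈ Finset.Ico a n, f l ≤ 2 * f a - 2 * f n := by
  induction n, hn using Nat.le_induction with
  | base => simp
  | succ n hn ih => rw [Finset.sum_Ico_succ_top hn]; linarith [h n]

theorem tail_half' (f : ℕ → ℝ) (h0 : ∀ i, 0 ≤ f i) (h : ∀ i, f (i + 1) ≤ f i / 2) (a n : ℕ) :
    ∑ l ∈ Finset.Ico a n, f l ≤ 2 * f a := by
  rcases le_total a n with hn | hn
  · linarith [tail_half f h a n hn, h0 n]
  · rw [Finset.Ico_eq_empty_of_le hn, Finset.sum_empty]; linarith [h0 a]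

theorem eps_tail (i n : ℕ) : ∑ l ∈ Finset.Ico (i + 1) n, eps l ≤ dl i * eps i ^ i / 2 := by
  have h := tail_half' eps (fun i => (eps_pos i).le) eps_half (i + 1) n
  have h1 : 0 ≤ dl i * eps i ^ i := by have := dl_pos i; have := eps_pos i; positivity
  have h2 : eps (i + 1) = dl i * eps i ^ i * eps i / 4 := by simp only [eps, pow_succ]; ring
  nlinarith [eps_le i]

theorem eps_tail' (i n : ℕ) : ∑ l ∈ Finset.Ico (i + 1) n, eps l ≤ dl i / 2 := by
  have h1 : eps i ^ i ≤ 1 := pow_le_one₀ (eps_pos i).le (eps_le i)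
  nlinarith [eps_tail i n, dl_pos i]

theorem dl_tail (a n : ℕ) : ∑ l ∈ Finset.Ico a n, dl l ≤ 2 * dl a :=
  tail_half' dl (fun i => (dl_pos i).le) (fun i => (dl_succ i).le) a n

noncomputable def nest (F : ℕ → X → X) (e : ℝ) (i : ℕ) (w : X) : ℕ → X
  | 0 => w
  | m + 1 => F (i - (m + 1)) (e • nest F e i w m)

noncomputable def tw (s : X) (y : ℕ → X) (Φ : ℕ → X → X) : ℕ → ℕ → X → X
  | 0 => fun _ => id
  | i + 1 => fun k =>
    if k < i then
      av (eps i • nest (tw s y Φ i) (eps i) i 0 (i - (k + 1)))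
        (eps i • (nest (tw s y Φ i) (eps i) i (y i) (i - (k + 1))
          - nest (tw s y Φ i) (eps i) i 0 (i - (k + 1)))) (tw s y Φ i k)
    else av ((1 - dl i / 2) • (0 : X)) ((1 - dl i / 2) • (s - 0)) (Φ i)

noncomputable def PP (s : X) (y : ℕ → X) (Φ : ℕ → X → X) (w : X) (k i : ℕ) : X :=
  nest (tw s y Φ i) (eps i) i w (i - k)

noncomputable def UU (s : X) (y : ℕ → X) (Φ : ℕ → X → X) (k i : ℕ) : X :=
  (eps i ^ (i - k))⁻¹ • (PP s y Φ (y i) k i - PP s y Φ 0 k i)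

theorem tw_local (s : X) {y y' : ℕ → X} {Φ Φ' : ℕ → X → X} (i : ℕ)
    (h : ∀ j < i, y j = y' j ∧ Φ j = Φ' j) : tw s y Φ i = tw s y' Φ' i := by
  induction i with
  | zero => rfl
  | succ i ih =>
    have h1 := ih fun j hj => h j (by omega)
    obtain ⟨h2, h3⟩ := h i (by omega)
    simp only [tw, h1, h2, h3]

theorem PP_local (s : X) {y y' : ℕ → X} {Φ Φ' : ℕ → X → X} (i : ℕ)
    (h : ∀ j < i, y j = y' j ∧ Φ j = Φ' j) (w : X) (k : ℕ) :
    PP s y Φ w k i = PP s y' Φ' w k i := by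
  unfold PP; rw [tw_local s i h]

theorem PP_self (s : X) (y : ℕ → X) (Φ : ℕ → X → X) (w : X) (i : ℕ) : PP s y Φ w i i = w := by
  simp [PP, nest]

theorem PP_step (s : X) (y : ℕ → X) (Φ : ℕ → X → X) (w : X) {k i : ℕ} (h : k < i) :
    PP s y Φ w k i = tw s y Φ i k (eps i • PP s y Φ w (k + 1) i) := by
  unfold PP
  rw [show i - k = (i - (k + 1)) + 1 by omega]
  simp only [nest]
  rw [show i - (i - (k + 1) + 1) = k by omega]

theorem UU_self (s : X) (y : ℕ → X) (Φ : ℕ → X → X) (i : ℕ) : UU s y Φ i i = y i := by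
  simp [UU, PP_self]

theorem tw_lt (s : X) (y : ℕ → X) (Φ : ℕ → X → X) {k i : ℕ} (h : k < i) :
    tw s y Φ (i + 1) k = av (eps i • PP s y Φ 0 (k + 1) i)
      (eps i • (PP s y Φ (y i) (k + 1) i - PP s y Φ 0 (k + 1) i)) (tw s y Φ i k) := by
  simp only [tw, if_pos h, PP]

theorem tw_eq (s : X) (y : ℕ → X) (Φ : ℕ → X → X) (i : ℕ) :
    tw s y Φ (i + 1) i = av ((1 - dl i / 2) • (0 : X)) ((1 - dl i / 2) • (s - 0)) (Φ i) := by
  simp only [tw, lt_irrefl, if_false]

noncomputable def om (k i : ℕ) : ℝ := dl k / 2 - ∑ l ∈ Finset.Ico (k + 1) i, eps l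

theorem om_nonneg (k i : ℕ) : 0 ≤ om k i := sub_nonneg.2 (eps_tail' k i)

theorem om_succ {k i : ℕ} (h : k < i) : om k i = om k (i + 1) + eps i := by
  unfold om; rw [Finset.sum_Ico_succ_top (by omega)]; ring

theorem eps_le_om {k i : ℕ} (h : k < i) : eps i ≤ om k i := by
  rw [om_succ h]; linarith [om_nonneg k (i + 1)]

theorem PP_mem_of {K : Set X} (h : Body K) {s : X} {y : ℕ → X} {Φ : ℕ → X → X} {i : ℕ}
    (hG : ∀ k < i, Good K (Φ k) (om k i) (tw s y Φ i k)) {w : X} (hw : w ∈ K) :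
    ∀ k ≤ i, PP s y Φ w k i ∈ K := by
  intro k hk
  induction hk using Nat.decreasingInduction with
  | self => rw [PP_self]; exact hw
  | of_succ k hk ih =>
    rw [PP_step _ _ _ _ hk]
    exact (hG k hk).1 _ (InS.mono h (eps_pos i).le (eps_le_om hk) ⟨_, ih, rfl⟩)

theorem tw_good [CompleteSpace X] {K : Set X} (h : Body K) {s : X} (hs : s ∈ K) {y : ℕ → X}
    {Φ : ℕ → X → X} (i : ℕ) (hy : ∀ j < i, y j ∈ K ∧ NE K (Φ j)) :
    ∀ k < i, Good K (Φ k) (om k i) (tw s y Φ i k) := by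
  induction i with
  | zero => intro k hk; omega
  | succ i ih =>
    have ih' := ih fun j hj => hy j (by omega)
    intro k hk
    rcases (Nat.lt_succ_iff.1 hk).lt_or_eq with hk | rfl
    · rw [tw_lt _ _ _ hk]
      exact Good.step h (om_nonneg _ _) (eps_pos i).le (om_succ hk ▸ ih' k hk)
        (PP_mem_of h ih' (hy i (by omega)).1 _ hk) (PP_mem_of h ih' h.zero _ hk)
    · rw [tw_eq]
      refine Good.step h (om_nonneg _ _) (by linarith [dl_le k]) ?_ hs h.zero
      have : om k (k + 1) + (1 - dl k / 2) = 1 := by simp [om]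
      rw [this]
      exact good_zero (hy k (by omega)).2

theorem PP_mem [CompleteSpace X] {K : Set X} (h : Body K) {s : X} (hs : s ∈ K) {y : ℕ → X}
    {Φ : ℕ → X → X} (i : ℕ) (hy : ∀ j < i, y j ∈ K ∧ NE K (Φ j)) {w : X} (hw : w ∈ K) :
    ∀ k ≤ i, PP s y Φ w k i ∈ K :=
  PP_mem_of h (tw_good h hs i hy) hw

theorem PP_near [CompleteSpace X] {K : Set X} (h : Body K) {s : X} (hs : s ∈ K) {y : ℕ → X}
    {Φ : ℕ → X → X} (i : ℕ) (hy : ∀ j < i, y j ∈ K ∧ NE K (Φ j)) {w : X} (hw : w ∈ K) {ζ : ℝ}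
    (hζ : 0 ≤ ζ) (hw' : ∀ k < i, ‖Φ k w - w‖ ≤ ζ) :
    ∀ k ≤ i, ‖PP s y Φ w k i - w‖ ≤ 1 - eps i ^ (i - k) + (i - k : ℕ) * ζ := by
  intro k hk
  induction hk using Nat.decreasingInduction with
  | self => simp [PP_self]
  | of_succ k hk ih =>
    rw [PP_step _ _ _ _ hk]
    have h1 := Good.near h (eps_pos i).le (eps_le_om hk) (tw_good h hs i hy k hk)
      (PP_mem h hs i hy hw (k + 1) hk) hw
    have h2 := norm_sub_le_norm_sub_add_norm_sub
      (tw s y Φ i k (eps i • PP s y Φ w (k + 1) i)) (Φ k w) w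
    rw [show i - k = (i - (k + 1)) + 1 by omega, pow_succ]
    push_cast
    set m := i - (k + 1)
    have h3 : eps i * ‖PP s y Φ w (k + 1) i - w‖ ≤ eps i * (1 - eps i ^ m + m * ζ) :=
      mul_le_mul_of_nonneg_left ih (eps_pos i).le
    have h4 : eps i * (m * ζ) ≤ m * ζ :=
      mul_le_of_le_one_left (by positivity) (eps_le i)
    nlinarith [hw' k hk]

theorem tw_id [CompleteSpace X] (s : X) (y : ℕ → X) {Φ : ℕ → X → X} {k : ℕ} (hk : Φ k = id) :
    ∀ i, k < i → ∀ w w', tw s y Φ i k w - tw s y Φ i k w' = w - w' := by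
  intro i hi
  induction i, hi using Nat.le_induction with
  | base => rw [tw_eq, hk]; exact id_step (fun _ _ => rfl) _ _
  | succ i hi ih => rw [tw_lt _ _ _ hi]; exact id_step ih _ _

theorem UU_id [CompleteSpace X] (s : X) (y : ℕ → X) {Φ : ℕ → X → X} {k : ℕ} (hk : Φ k = id)
    {i : ℕ} (hi : k < i) : UU s y Φ k i = UU s y Φ (k + 1) i := by
  unfold UU
  rw [PP_step _ _ _ _ hi, PP_step _ _ _ 0 hi, tw_id s y hk i hi, ← smul_sub, smul_smul,
    show i - k = (i - (k + 1)) + 1 by omega, pow_succ]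
  congr 1
  have := eps_pos i
  field_simp

theorem op_ineq [CompleteSpace X] {K : Set X} (h : Body K) {s : X} (hs : s ∈ K) {y : ℕ → X}
    {Φ : ℕ → X → X} (hy : ∀ j, y j ∈ K ∧ NE K (Φ j)) (k n : ℕ) (v : X) (γ0 : ℝ) (γ : ℕ → ℝ) :
    ‖γ0 • (s - v) + ∑ i ∈ Finset.Ico (k + 1) n, γ i • UU s y Φ k i‖ ≤
      ‖γ0 • s + ∑ i ∈ Finset.Ico (k + 1) n, γ i • UU s y Φ (k + 1) i‖
        + |γ0| * (2 * dl k + ‖Φ k s - s‖ + ‖Φ k 0 - v‖)
        + ∑ i ∈ Finset.Ico (k + 1) n, |γ i| * dl i := by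
  let G : ℕ → X → X := fun j => Nat.casesOn j (Φ k) fun j => tw s y Φ (k + 1 + j) k
  let p : ℕ → X := fun j => Nat.casesOn j s fun j => PP s y Φ (y (k + 1 + j)) (k + 1) (k + 1 + j)
  let q : ℕ → X := fun j => Nat.casesOn j 0 fun j => PP s y Φ 0 (k + 1) (k + 1 + j)
  let e : ℕ → ℝ := fun j => Nat.casesOn j (1 - dl k / 2) fun j => eps (k + 1 + j)
  let c : ℕ → ℝ := fun j => Nat.casesOn j γ0 fun j => γ (k + 1 + j) * (eps (k + 1 + j) ^ (j + 1))⁻¹
  have hp : ∀ j, p j ∈ K := fun j => by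
    cases j with
    | zero => exact hs
    | succ j => exact PP_mem h hs _ (fun j _ => hy j) (hy _).1 _ (by omega)
  have hq : ∀ j, q j ∈ K := fun j => by
    cases j with
    | zero => exact h.zero
    | succ j => exact PP_mem h hs _ (fun j _ => hy j) h.zero _ (by omega)
  have he : ∀ j, 0 ≤ e j := fun j => by
    cases j with
    | zero => show 0 ≤ 1 - dl k / 2; linarith [dl_le k]
    | succ j => exact (eps_pos _).le
  have htail : ∀ j m, ∑ l ∈ Finset.Ico (j + 1) m, e l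
      = ∑ l ∈ Finset.Ico (k + j + 1) (k + m), eps l := by
    intro j m
    rw [Finset.sum_Ico_eq_sum_range, Finset.sum_Ico_eq_sum_range,
      show k + m - (k + j + 1) = m - (j + 1) by omega]
    refine Finset.sum_congr rfl fun l _ => ?_
    rw [show j + 1 + l = (j + l) + 1 by omega]
    show eps (k + 1 + (j + l)) = _
    congr 1; omega
  have he1 : ∀ n, ∑ j ∈ Finset.range n, e j ≤ 1 := fun n => by
    cases n with
    | zero => simp
    | succ n =>
      rw [Finset.range_eq_Ico, Finset.sum_eq_sum_Ico_succ_bot (by omega), htail]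
      have := eps_tail' k (k + (n + 1))
      show 1 - dl k / 2 + _ ≤ 1
      rw [add_zero]; linarith
  have hs' : ∀ j, G (j + 1) = av (e j • q j) (e j • (p j - q j)) (G j) := fun j => by
    cases j with
    | zero => exact tw_eq s y Φ k
    | succ j => exact tw_lt s y Φ (show k < k + 1 + j by omega)
  have key := LL h (hy k).2 G p q e hp hq he he1 rfl hs' (n - (k + 1) + 1) c
  rw [Finset.sum_range_succ', Finset.sum_range_succ', Finset.sum_range_succ'] at key
  rw [Finset.sum_Ico_eq_sum_range, Finset.sum_Ico_eq_sum_range, Finset.sum_Ico_eq_sum_range]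
  set m := n - (k + 1)
  have e1 : ∑ j ∈ Finset.range m, c (j + 1) • (G (j + 1) (e (j + 1) • p (j + 1))
      - G (j + 1) (e (j + 1) • q (j + 1)))
      = ∑ j ∈ Finset.range m, γ (k + 1 + j) • UU s y Φ k (k + 1 + j) := by
    refine Finset.sum_congr rfl fun j _ => ?_
    unfold UU
    rw [PP_step _ _ _ _ (show k < k + 1 + j by omega), PP_step _ _ _ 0 (show k < k + 1 + j by omega),
      smul_smul, show k + 1 + j - k = j + 1 by omega]
  have e2 : ∑ j ∈ Finset.range m, c (j + 1) • e (j + 1) • (p (j + 1) - q (j + 1))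
      = ∑ j ∈ Finset.range m, γ (k + 1 + j) • UU s y Φ (k + 1) (k + 1 + j) := by
    refine Finset.sum_congr rfl fun j _ => ?_
    unfold UU
    rw [smul_smul, smul_smul, show k + 1 + j - (k + 1) = j by omega]
    congr 1
    show γ (k + 1 + j) * (eps (k + 1 + j) ^ (j + 1))⁻¹ * eps (k + 1 + j) = _
    have := eps_pos (k + 1 + j)
    field_simp
    ring
  have e3 : ∑ j ∈ Finset.range m, |c (j + 1)| * ∑ l ∈ Finset.Ico (j + 1 + 1) (m + 1), e l
      ≤ (∑ j ∈ Finset.range m, |γ (k + 1 + j)| * dl (k + 1 + j)) / 2 := by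
    rw [Finset.sum_div]
    refine Finset.sum_le_sum fun j _ => ?_
    rw [htail, show k + (j + 1) + 1 = k + 1 + j + 1 by omega]
    have h1 := eps_tail (k + 1 + j) (k + (m + 1))
    have h2 := eps_pos (k + 1 + j)
    have h3 : eps (k + 1 + j) ^ (k + 1 + j) ≤ eps (k + 1 + j) ^ (j + 1) :=
      pow_le_pow_of_le_one h2.le (eps_le _) (by omega)
    have h4 := dl_pos (k + 1 + j)
    have h5 : |c (j + 1)| = |γ (k + 1 + j)| * (eps (k + 1 + j) ^ (j + 1))⁻¹ := by
      show |γ (k + 1 + j) * (eps (k + 1 + j) ^ (j + 1))⁻¹| = _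
      rw [abs_mul, abs_of_pos (by positivity : 0 < (eps (k + 1 + j) ^ (j + 1))⁻¹)]
    rw [h5, mul_assoc, mul_div_assoc]
    refine mul_le_mul_of_nonneg_left ?_ (abs_nonneg _)
    rw [inv_mul_le_iff₀ (by positivity)]
    nlinarith
  have e4 : ∑ l ∈ Finset.Ico (0 + 1) (m + 1), e l ≤ dl k / 2 := by
    rw [htail]; exact eps_tail' k _
  rw [e1, e2] at key
  set A := ∑ j ∈ Finset.range m, γ (k + 1 + j) • UU s y Φ k (k + 1 + j)
  set B := ∑ j ∈ Finset.range m, γ (k + 1 + j) • UU s y Φ (k + 1) (k + 1 + j)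
  have key' : ‖A + γ0 • (Φ k ((1 - dl k / 2) • s) - Φ k ((1 - dl k / 2) • (0 : X)))‖ ≤
      ‖B + γ0 • (1 - dl k / 2) • (s - 0)‖
      + 2 * (∑ j ∈ Finset.range m, |c (j + 1)| * ∑ l ∈ Finset.Ico (j + 1 + 1) (m + 1), e l
        + |γ0| * ∑ l ∈ Finset.Ico (0 + 1) (m + 1), e l) := key
  rw [smul_zero, sub_zero] at key'
  have hd := dl_pos k
  have hs1 : ‖s‖ ≤ 1 := h.norm_le hs
  have hss : ‖(1 - dl k / 2) • s - s‖ ≤ dl k / 2 := by
    rw [show (1 - dl k / 2) • s - s = -((dl k / 2) • s) by module, norm_neg, norm_smul,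
      Real.norm_of_nonneg (by positivity)]
    exact mul_le_of_le_one_right (by positivity) hs1
  have hsK : (1 - dl k / 2) • s ∈ K := by
    have := h.convex hs h.zero (a := 1 - dl k / 2) (b := dl k / 2) (by linarith [dl_le k])
      (by positivity) (by ring)
    simpa using this
  have f1 : ‖Φ k ((1 - dl k / 2) • s) - Φ k s‖ ≤ dl k / 2 := ((hy k).2.2 _ hsK _ hs).trans hss
  have f2 : ‖γ0 • (s - v) + A‖ ≤ ‖A + γ0 • (Φ k ((1 - dl k / 2) • s) - Φ k 0)‖
      + |γ0| * (dl k / 2 + ‖Φ k s - s‖ + ‖Φ k 0 - v‖) := by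
    have : γ0 • (s - v) + A = (A + γ0 • (Φ k ((1 - dl k / 2) • s) - Φ k 0))
        + γ0 • (-(Φ k ((1 - dl k / 2) • s) - Φ k s) - (Φ k s - s) + (Φ k 0 - v)) := by module
    rw [this]
    refine (norm_add_le _ _).trans (add_le_add le_rfl ?_)
    rw [norm_smul, Real.norm_eq_abs]
    refine mul_le_mul_of_nonneg_left ((norm_add_le _ _).trans (add_le_add
      ((norm_sub_le _ _).trans ?_) le_rfl)) (abs_nonneg _)
    rw [norm_neg]; linarith
  have f3 : ‖B + γ0 • (1 - dl k / 2) • s‖ ≤ ‖γ0 • s + B‖ + |γ0| * (dl k / 2) := by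
    have : B + γ0 • (1 - dl k / 2) • s = (γ0 • s + B) + γ0 • ((1 - dl k / 2) • s - s) := by module
    rw [this]
    refine (norm_add_le _ _).trans (add_le_add le_rfl ?_)
    rw [norm_smul, Real.norm_eq_abs]
    exact mul_le_mul_of_nonneg_left hss (abs_nonneg _)
  have f4 : |γ0| * ∑ l ∈ Finset.Ico (0 + 1) (m + 1), e l ≤ |γ0| * (dl k / 2) :=
    mul_le_mul_of_nonneg_left e4 (abs_nonneg _)
  nlinarith

theorem bounded_ineq [CompleteSpace X] {K : Set X} (h : Body K) {s : X} (hs : s ∈ K) {y : ℕ → X}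
    {Φ : ℕ → X → X} (hy : ∀ j, y j ∈ K ∧ NE K (Φ j)) (θ : ℕ → ℝ) (hθ : ∀ i, |θ i| ≤ 1)
    (hΦ : ∀ k, ‖Φ k 0 - θ k • y k‖ ≤ dl k) (n : ℕ) :
    ‖s - ∑ i ∈ Finset.range n, θ i • UU s y Φ 0 i‖ ≤ 9 + ∑ k ∈ Finset.range n, ‖Φ k s - s‖ := by
  have key : ∀ k ≤ n, ‖s - ∑ i ∈ Finset.Ico 0 n, θ i • UU s y Φ 0 i‖ ≤
      ‖s - ∑ i ∈ Finset.Ico k n, θ i • UU s y Φ k i‖
        + ∑ j ∈ Finset.range k, (4 * dl j + ‖Φ j s - s‖) := by
    intro k
    induction k with
    | zero => intro _; simp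
    | succ k ih =>
      intro hk
      have h1 := ih (by omega)
      have h2 := op_ineq h hs hy k n (θ k • y k) 1 (fun i => -θ i)
      have h3 : ∑ i ∈ Finset.Ico (k + 1) n, |-θ i| * dl i ≤ dl k := by
        have := dl_tail (k + 1) n
        rw [dl_succ] at this
        refine le_trans (Finset.sum_le_sum fun i _ => ?_) (this.trans (by linarith))
        rw [abs_neg]
        exact mul_le_of_le_one_left (dl_pos i).le (hθ i)
      rw [Finset.sum_eq_sum_Ico_succ_bot (show k < n by omega), UU_self] at h1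
      simp only [one_smul, neg_smul, Finset.sum_neg_distrib, abs_one, one_mul] at h2 h3
      rw [← sub_eq_add_neg, ← sub_eq_add_neg, sub_sub] at h2
      rw [Finset.sum_range_succ]
      linarith [hΦ k]
  have h1 := key n le_rfl
  rw [Finset.Ico_self, Finset.sum_empty, sub_zero, Finset.sum_add_distrib, ← Finset.mul_sum,
    ← Finset.range_eq_Ico] at h1
  have h2 := dl_tail 0 n
  rw [← Finset.range_eq_Ico] at h2
  have h3 : dl 0 = 1 := by simp [dl]
  linarith [h.norm_le hs]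

theorem mazur_ineq [CompleteSpace X] {K : Set X} (h : Body K) {s : X} (hs : s ∈ K) {y : ℕ → X}
    {Φ : ℕ → X → X} (hy : ∀ j, y j ∈ K ∧ NE K (Φ j)) (i0 : ℕ) (hid : ∀ k, i0 ≤ k → Φ k = id)
    (γ : ℕ → ℝ) (hγ : ∀ i < i0, γ i = 0) (n : ℕ) :
    ‖∑ i ∈ Finset.range n, γ i • UU s y Φ 0 i‖ ≤ ‖∑ i ∈ Finset.range n, γ i • y i‖
      + i0 * ∑ i ∈ Finset.range n, |γ i| * dl i := by
  have hsum : ∀ {M : Type _} [AddCommMonoid M] (f : ℕ → M) (k : ℕ), (∀ i < k, f i = 0) →
      ∑ i ∈ Finset.Ico k n, f i = ∑ i ∈ Finset.range n, f i := by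
    intro M _ f k hf
    refine Finset.sum_subset (fun i hi => ?_) fun i hi hi' => hf i ?_
    · simp only [Finset.mem_Ico, Finset.mem_range] at *; omega
    · simp only [Finset.mem_Ico, Finset.mem_range] at *; omega
  have hsum' : ∀ (f : ℕ → ℝ) (k : ℕ), (∀ i < k, f i = 0) →
      ∑ i ∈ Finset.Ico k n, f i = ∑ i ∈ Finset.range n, f i := by
    intro f k hf
    refine Finset.sum_subset (fun i hi => ?_) fun i hi hi' => hf i ?_
    · simp only [Finset.mem_Ico, Finset.mem_range] at *; omega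
    · simp only [Finset.mem_Ico, Finset.mem_range] at *; omega
  have key : ∀ k ≤ i0, ‖∑ i ∈ Finset.range n, γ i • UU s y Φ 0 i‖ ≤
      ‖∑ i ∈ Finset.range n, γ i • UU s y Φ k i‖ + k * ∑ i ∈ Finset.range n, |γ i| * dl i := by
    intro k
    induction k with
    | zero => intro _; simp
    | succ k ih =>
      intro hk
      have h1 := ih (by omega)
      have h2 := op_ineq h hs hy k n 0 0 γ
      simp only [zero_smul, zero_add, abs_zero, zero_mul, add_zero] at h2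
      rw [hsum (M := X) _ _ (fun i hi => by rw [hγ i (by omega), zero_smul]),
        hsum (M := X) _ _ (fun i hi => by rw [hγ i (by omega), zero_smul]),
        hsum' _ _ (fun i hi => by rw [hγ i (by omega), abs_zero, zero_mul])] at h2
      push_cast
      linarith
  have h1 := key i0 le_rfl
  have h2 : ∀ i, i0 ≤ i → ∀ k ≤ i, i0 ≤ k → UU s y Φ k i = y i := by
    intro i _ k hk
    induction hk using Nat.decreasingInduction with
    | self => intro _; exact UU_self _ _ _ _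
    | of_succ k hk ih => intro hk'; rw [UU_id s y (hid k hk') hk]; exact ih (by omega)
  have h3 : ∑ i ∈ Finset.range n, γ i • UU s y Φ i0 i = ∑ i ∈ Finset.range n, γ i • y i := by
    refine Finset.sum_congr rfl fun i _ => ?_
    rcases lt_or_ge i i0 with hi | hi
    · rw [hγ i hi, zero_smul, zero_smul]
    · rw [h2 i hi i0 hi le_rfl]
  rwa [h3] at h1

end Crest.Agent.FP
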